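import Crest.Agent.N218.C.Gen

/-! # N218/C/Bl (helper48): smooth maps with bounded and Lipschitz derivative; change of fibre -/

set_option autoImplicit false

open Set Filter Topology
open scoped ContDiff

noncomputable section

namespace Crest.Agent.N218.C

section
variable {X F H : Type*} [NormedAddCommGroup X] [NormedSpace ℝ X] [NormedAddCommGroup F]
  [NormedSpace ℝ F] [NormedAddCommGroup H] [NormedSpace ℝ H]

/-- smooth, with bounded and Lipschitz derivative -/
structure BL (f : X → F) : Prop where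
  sm : ContDiff ℝ ∞ f
  bd : ∃ C : ℝ, 0 ≤ C ∧ (∀ x, ‖fderiv ℝ f x‖ ≤ C) ∧
    ∀ x y, ‖fderiv ℝ f x - fderiv ℝ f y‖ ≤ C * ‖x - y‖

/-- bounded values -/
def Bv {α : Type*} (f : α → F) : Prop := ∃ C : ℝ, ∀ x, ‖f x‖ ≤ C

omit [NormedSpace ℝ F] in
theorem Bv.add {α : Type*} {f g : α → F} (hf : Bv f) (hg : Bv g) : Bv fun x => f x + g x :=
  let ⟨a, ha⟩ := hf; let ⟨b, hb⟩ := hg; ⟨a + b, fun x => norm_add_le_of_le (ha x) (hb x)⟩

omit [NormedSpace ℝ F] in
theorem Bv.comp {α β : Type*} {f : α → F} (hf : Bv f) (g : β → α) : Bv fun x => f (g x) :=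
  let ⟨a, ha⟩ := hf; ⟨a, fun x => ha _⟩

omit [NormedSpace ℝ F] [NormedSpace ℝ X] in
theorem Bv.of_cpt {f : X → F} (h : Continuous f) (hc : HasCompactSupport f) : Bv f :=
  h.bounded_above_of_compact_support hc

theorem BL.dif {f : X → F} (h : BL f) (x : X) : HasFDerivAt f (fderiv ℝ f x) x :=
  (h.sm.differentiable (by simp) x).hasFDerivAt

theorem BL.lip {f : X → F} (h : BL f) : ∃ C : ℝ, 0 ≤ C ∧ ∀ x y, ‖f x - f y‖ ≤ C * ‖x - y‖ :=
  let ⟨C, h0, h1, _⟩ := h.bd
  ⟨C, h0, fun x y => convex_univ.norm_image_sub_le_of_norm_fderiv_le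
    (fun z _ => (h.dif z).differentiableAt) (fun z _ => h1 z) (mem_univ _) (mem_univ _)⟩

theorem BL.clm (A : X →L[ℝ] F) : BL A :=
  ⟨A.contDiff, ‖A‖, norm_nonneg _, fun x => by rw [A.fderiv], fun x y => by
    rw [A.fderiv, A.fderiv, sub_self, norm_zero]; positivity⟩

theorem BL.const (c : F) : BL fun _ : X => c :=
  ⟨contDiff_const, 0, le_rfl, fun x => by simp, fun x y => by simp⟩

theorem BL.comp {g : F → H} {f : X → F} (hg : BL g) (hf : BL f) : BL fun x => g (f x) := by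
  obtain ⟨A, a0, a1, a2⟩ := hg.bd
  obtain ⟨B, b0, b1, b2⟩ := hf.bd
  obtain ⟨C, c0, c1⟩ := hf.lip
  have d : ∀ x, fderiv ℝ (fun x => g (f x)) x = (fderiv ℝ g (f x)).comp (fderiv ℝ f x) :=
    fun x => ((hg.dif (f x)).comp x (hf.dif x)).fderiv
  refine ⟨hg.sm.comp hf.sm, A * B * (C + 1), by positivity, fun x => ?_, fun x y => ?_⟩
  · rw [d]
    refine (ContinuousLinearMap.opNorm_comp_le _ _).trans
      ((mul_le_mul (a1 _) (b1 _) (norm_nonneg _) a0).trans ?_)
    nlinarith [mul_nonneg a0 b0]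
  · have e : (fderiv ℝ g (f x)).comp (fderiv ℝ f x) - (fderiv ℝ g (f y)).comp (fderiv ℝ f y) =
        (fderiv ℝ g (f x) - fderiv ℝ g (f y)).comp (fderiv ℝ f x) +
          (fderiv ℝ g (f y)).comp (fderiv ℝ f x - fderiv ℝ f y) := by
      ext v; simp
    rw [d, d, e]
    refine (norm_add_le_of_le ((ContinuousLinearMap.opNorm_comp_le _ _).trans
      (mul_le_mul ((a2 _ _).trans (mul_le_mul_of_nonneg_left (c1 x y) a0)) (b1 _) (norm_nonneg _)
        (by positivity))) ((ContinuousLinearMap.opNorm_comp_le _ _).trans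
      (mul_le_mul (a1 _) (b2 x y) (norm_nonneg _) a0))).trans (le_of_eq (by ring))

theorem BL.prodMk {f : X → F} {g : X → H} (hf : BL f) (hg : BL g) : BL fun x => (f x, g x) := by
  obtain ⟨A, a0, a1, a2⟩ := hf.bd
  obtain ⟨B, b0, b1, b2⟩ := hg.bd
  have d : ∀ x, fderiv ℝ (fun x => (f x, g x)) x = (fderiv ℝ f x).prod (fderiv ℝ g x) :=
    fun x => ((hf.dif x).prodMk (hg.dif x)).fderiv
  refine ⟨hf.sm.prodMk hg.sm, A + B, by positivity, fun x => ?_, fun x y => ?_⟩
  · rw [d, ContinuousLinearMap.opNorm_prod, Prod.norm_mk]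
    exact max_le (by linarith [a1 x]) (by linarith [b1 x])
  · have e : (fderiv ℝ f x).prod (fderiv ℝ g x) - (fderiv ℝ f y).prod (fderiv ℝ g y) =
        (fderiv ℝ f x - fderiv ℝ f y).prod (fderiv ℝ g x - fderiv ℝ g y) := by
      ext v <;> simp
    rw [d, d, e, ContinuousLinearMap.opNorm_prod, Prod.norm_mk]
    have := norm_nonneg (x - y)
    exact max_le (by nlinarith [a2 x y]) (by nlinarith [b2 x y])

theorem BL.add {f g : X → F} (hf : BL f) (hg : BL g) : BL fun x => f x + g x :=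
  (BL.clm (ContinuousLinearMap.fst ℝ F F + ContinuousLinearMap.snd ℝ F F)).comp (hf.prodMk hg)

theorem BL.sub {f g : X → F} (hf : BL f) (hg : BL g) : BL fun x => f x - g x :=
  (BL.clm (ContinuousLinearMap.fst ℝ F F - ContinuousLinearMap.snd ℝ F F)).comp (hf.prodMk hg)

theorem BL.smul {f : X → F} (hf : BL f) (c : ℝ) : BL fun x => c • f x :=
  (BL.clm (c • ContinuousLinearMap.id ℝ F)).comp hf

theorem BL.id : BL fun x : X => x := BL.clm (ContinuousLinearMap.id ℝ X)

theorem BL.fst {f : X → F × H} (hf : BL f) : BL fun x => (f x).1 :=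
  (BL.clm (ContinuousLinearMap.fst ℝ F H)).comp hf

theorem BL.snd {f : X → F × H} (hf : BL f) : BL fun x => (f x).2 :=
  (BL.clm (ContinuousLinearMap.snd ℝ F H)).comp hf

theorem BL.of_cpt {f : X → F} (h : ContDiff ℝ ∞ f) (hc : HasCompactSupport f) : BL f := by
  have h1 : ContDiff ℝ ∞ (fderiv ℝ f) := h.fderiv_right (m := ∞) (by norm_cast)
  obtain ⟨A, hA⟩ := h1.continuous.bounded_above_of_compact_support (hc.fderiv ℝ)
  obtain ⟨B, hB⟩ := (h1.continuous_fderiv (by simp)).bounded_above_of_compact_support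
    ((hc.fderiv ℝ).fderiv ℝ)
  have a0 := (norm_nonneg _).trans (hA 0)
  have b0 := (norm_nonneg _).trans (hB 0)
  exact ⟨h, A + B, by positivity, fun x => by linarith [hA x], fun x y =>
    convex_univ.norm_image_sub_le_of_norm_fderiv_le (fun z _ => h1.differentiable (by simp) z)
      (fun z _ => by linarith [hB z]) (mem_univ _) (mem_univ _)⟩

theorem BL.of_d2 {f : X → ℝ} (h : ContDiff ℝ ∞ f) {a b : ℝ} (a0 : 0 ≤ a) (b0 : 0 ≤ b)
    (h1 : ∀ z v, ‖fderiv ℝ f z v‖ ≤ a * ‖v‖)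
    (h2 : ∀ z u v, ‖fderiv ℝ (fderiv ℝ f) z u v‖ ≤ b * ‖u‖ * ‖v‖) : BL f :=
  ⟨h, a + b, by positivity, fun x => (ContinuousLinearMap.opNorm_le_bound _ a0 (h1 x)).trans
    (by linarith), fun x y => (ContinuousLinearMap.opNorm_le_bound _ (by positivity)
      (lip_d h b0 h2 x y)).trans (by nlinarith [norm_nonneg (x - y)])⟩


end

variable {V E E' : Type*} [NormedAddCommGroup V] [NormedSpace ℝ V] [NormedAddCommGroup E]
  [NormedSpace ℝ E] [NormedAddCommGroup E'] [NormedSpace ℝ E']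

/-- linear change of the fibre -/
theorem Gen.eqv {G : V × E → ℝ} {D : Set (V × E)} {U : Set V} {L : Set (V × (V →L[ℝ] ℝ))}
    (h : Gen G D U L) (e : E' ≃L[ℝ] E) :
    Gen (fun x : V × E' => G (x.1, e x.2)) {x | (x.1, e x.2) ∈ D} U L := by
  let T : (V × E') ≃L[ℝ] (V × E) := (ContinuousLinearEquiv.refl ℝ V).prodCongr e
  have d1 : ∀ x k : V × E', fderiv ℝ (fun x : V × E' => G (x.1, e x.2)) x k =
      fderiv ℝ G (x.1, e x.2) (k.1, e k.2) := fun x k =>
    ContinuousLinearMap.ext_iff.1 ((h.sm.differentiable (by simp) (T x)).hasFDerivAt.comp x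
      (T : V × E' →L[ℝ] V × E).hasFDerivAt).fderiv k
  have cr : ∀ x : V × E', Cr (fun x : V × E' => G (x.1, e x.2)) x ↔ Cr G (x.1, e x.2) := fun x =>
    ⟨fun c ζ => by simpa [d1] using c (e.symm ζ), fun c ζ => (d1 _ _).trans (c _)⟩
  have dd : ∀ x : V × E', dq (fun x : V × E' => G (x.1, e x.2)) x = dq G (x.1, e x.2) := fun x =>
    ContinuousLinearMap.ext fun w => by rw [dq_apply, d1, dq_apply, map_zero]
  have sm : ContDiff ℝ ∞ fun x : V × E' => G (x.1, e x.2) := h.sm.comp T.contDiff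
  refine ⟨sm, h.op.preimage T.continuous, fun x a b c => ?_, fun z a b => ?_,
    fun q a ξ ξ' b b' c c' i => ?_, fun x a b c ζ i => ?_⟩
  · rw [dd]; exact h.mem _ a b ((cr x).1 c)
  · obtain ⟨ξ, k, l, m⟩ := h.ex z a b
    refine ⟨e.symm ξ, by simpa using k, (cr _).2 (by simpa using l), ?_⟩
    rw [dd]; simpa using m
  · rw [dd, dd] at i
    exact e.injective (h.un q a _ _ b b' ((cr _).1 c) ((cr _).1 c') i)
  refine e.map_eq_zero_iff.1 (h.sub _ a b ((cr x).1 c) _ (ContinuousLinearMap.ext fun k => ?_))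
  have j := (has_d2a h.sm (T x) k).comp x (T : V × E' →L[ℝ] V × E).hasFDerivAt
  have l := j.unique ((has_d2a sm x (k.1, e.symm k.2)).congr_of_eventuallyEq
    (.of_forall fun y => by
      have := (d1 y (k.1, e.symm k.2)).symm
      rw [e.apply_symm_apply] at this
      exact this))
  exact (ContinuousLinearMap.ext_iff.1 l (0, ζ)).trans (ContinuousLinearMap.ext_iff.1 i _)

end Crest.Agent.N218.C

end
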