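import Mathlib

/-!
# Row 218, block C (helper66): Sylvester normal form `β = ⟪B ·, ·⟫`, `B` a symmetric involution
-/

set_option autoImplicit false

open scoped RealInnerProductSpace

namespace Crest.Agent.N218.C

/-- the diagonal operator -/
noncomputable def dgL {M : ℕ} (w : Fin M → ℝ) :
    EuclideanSpace ℝ (Fin M) →L[ℝ] EuclideanSpace ℝ (Fin M) :=
  LinearMap.toContinuousLinearMap
    { toFun := fun z => WithLp.toLp 2 fun i => w i * z i
      map_add' := fun z z' => by ext i; simp [mul_add]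
      map_smul' := fun a z => by ext i; simp [mul_left_comm] }

theorem dgL_apply {M : ℕ} (w : Fin M → ℝ) (z : EuclideanSpace ℝ (Fin M)) (i : Fin M) :
    dgL w z i = w i * z i := rfl

theorem dgL_inner {M : ℕ} (w : Fin M → ℝ) (z z' : EuclideanSpace ℝ (Fin M)) :
    ⟪dgL w z, z'⟫ = ∑ i, w i * (z i * z' i) := by
  rw [PiLp.inner_apply]
  refine Finset.sum_congr rfl fun i _ => ?_
  simp only [dgL_apply, RCLike.inner_apply, conj_trivial]
  ring

theorem dgL_symm {M : ℕ} (w : Fin M → ℝ) (z z' : EuclideanSpace ℝ (Fin M)) :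
    ⟪dgL w z, z'⟫ = ⟪z, dgL w z'⟫ := by
  rw [dgL_inner, real_inner_comm, dgL_inner]
  exact Finset.sum_congr rfl fun i _ => by ring

theorem dgL_dgL {M : ℕ} {w : Fin M → ℝ} (hw : ∀ i, w i = -1 ∨ w i = 1)
    (z : EuclideanSpace ℝ (Fin M)) : dgL w (dgL w z) = z := by
  ext i
  rw [dgL_apply, dgL_apply]
  rcases hw i with h | h <;> rw [h] <;> ring

theorem dgL_norm {M : ℕ} {w : Fin M → ℝ} (hw : ∀ i, w i = -1 ∨ w i = 1)
    (z : EuclideanSpace ℝ (Fin M)) : ‖dgL w z‖ = ‖z‖ := by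
  have : ‖dgL w z‖ ^ 2 = ‖z‖ ^ 2 := by
    rw [← real_inner_self_eq_norm_sq, ← real_inner_self_eq_norm_sq, dgL_symm, dgL_dgL hw]
  exact (sq_eq_sq₀ (norm_nonneg _) (norm_nonneg _)).1 this

variable {E : Type*} [NormedAddCommGroup E] [NormedSpace ℝ E] [FiniteDimensional ℝ E]

/-- Sylvester, diagonal form -/
theorem diag' (β : E →L[ℝ] E →L[ℝ] ℝ) (hs : ∀ x y, β x y = β y x)
    (hn : ∀ x, (∀ y, β x y = 0) → x = 0) :
    ∃ (w : Fin (Module.finrank ℝ E) → ℝ) (e : EuclideanSpace ℝ (Fin (Module.finrank ℝ E)) ≃L[ℝ] E),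
      (∀ i, w i = -1 ∨ w i = 1) ∧ ∀ z z', β (e z) (e z') = ⟪dgL w z, z'⟫ := by
  let b : LinearMap.BilinForm ℝ E := LinearMap.mk₂ ℝ (fun x y => β x y) (by simp) (by simp)
    (by simp) (by simp)
  have bs : ∀ x y, b x y = β x y := fun _ _ => rfl
  have as : QuadraticMap.associated (R := ℝ) b.toQuadraticMap = b :=
    QuadraticMap.associated_left_inverse ℝ fun x y => by rw [bs, bs, hs]
  obtain ⟨w, hw, ⟨f⟩⟩ := QuadraticForm.equivalent_one_neg_one_weighted_sum_squared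
    b.toQuadraticMap (by rw [as]; exact hn)
  let e : EuclideanSpace ℝ (Fin (Module.finrank ℝ E)) ≃ₗ[ℝ] E :=
    (WithLp.linearEquiv 2 ℝ _).trans f.toLinearEquiv.symm
  have q : ∀ z, β (e z) (e z) = ∑ i, w i * (z i * z i) := fun z => by
    have := f.map_app (e z)
    rw [QuadraticMap.weightedSumSquares_apply] at this
    rw [← bs]
    refine this.symm.trans (Finset.sum_congr rfl fun i _ => ?_)
    have : f (e z) = z.ofLp := f.toLinearEquiv.apply_symm_apply _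
    rw [this, smul_eq_mul]
  refine ⟨w, e.toContinuousLinearEquiv, hw, fun z z' => ?_⟩
  have h := q (z + z')
  simp only [map_add, add_apply, q, hs (e z') (e z), PiLp.add_apply] at h
  have h2 : ∑ i, w i * ((z i + z' i) * (z i + z' i)) = ∑ i, w i * (z i * z i) +
      2 * ∑ i, w i * (z i * z' i) + ∑ i, w i * (z' i * z' i) := by
    rw [Finset.mul_sum, ← Finset.sum_add_distrib, ← Finset.sum_add_distrib]
    exact Finset.sum_congr rfl fun i _ => by ring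
  rw [dgL_inner]
  change β (e z) (e z') = _
  linarith

/-- **DIAG**: a nondegenerate symmetric form is `⟪B ·, ·⟫` in Euclidean coordinates, `B` a
symmetric isometric involution -/
theorem diag (β : E →L[ℝ] E →L[ℝ] ℝ) (hs : ∀ x y, β x y = β y x)
    (hn : ∀ x, (∀ y, β x y = 0) → x = 0) :
    ∃ (M : ℕ) (e : EuclideanSpace ℝ (Fin M) ≃L[ℝ] E)
      (B : EuclideanSpace ℝ (Fin M) →L[ℝ] EuclideanSpace ℝ (Fin M)),
      (∀ z z', ⟪B z, z'⟫ = ⟪z, B z'⟫) ∧ (∀ z, B (B z) = z) ∧ (∀ z, ‖B z‖ = ‖z‖) ∧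
        ∀ z z', β (e z) (e z') = ⟪B z, z'⟫ := by
  obtain ⟨w, e, hw, h⟩ := diag' β hs hn
  exact ⟨_, e, dgL w, dgL_symm w, dgL_dgL hw, dgL_norm hw, h⟩

section
variable {Z V : Type*} [NormedAddCommGroup Z] [NormedSpace ℝ Z] [NormedAddCommGroup V]
  [NormedSpace ℝ V]

/-- add a hyperbolic block `p v` to the form `β` -/
noncomputable def hyp (V : Type*) [NormedAddCommGroup V] [NormedSpace ℝ V]
    (β : Z →L[ℝ] Z →L[ℝ] ℝ) : (Z × V × (V →L[ℝ] ℝ)) →L[ℝ] (Z × V × (V →L[ℝ] ℝ)) →L[ℝ] ℝ :=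
  let f : (Z × V × (V →L[ℝ] ℝ)) →L[ℝ] Z := .fst ℝ _ _
  let v : (Z × V × (V →L[ℝ] ℝ)) →L[ℝ] V := (ContinuousLinearMap.fst ℝ _ _).comp (.snd ℝ _ _)
  let p : (Z × V × (V →L[ℝ] ℝ)) →L[ℝ] (V →L[ℝ] ℝ) :=
    (ContinuousLinearMap.snd ℝ _ _).comp (.snd ℝ _ _)
  β.bilinearComp f f + (ContinuousLinearMap.id ℝ (V →L[ℝ] ℝ)).bilinearComp p v +
    ((ContinuousLinearMap.id ℝ (V →L[ℝ] ℝ)).bilinearComp p v).flip

theorem hyp_apply (β : Z →L[ℝ] Z →L[ℝ] ℝ) (x y : Z × V × (V →L[ℝ] ℝ)) :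
    hyp V β x y = β x.1 y.1 + x.2.2 y.2.1 + y.2.2 x.2.1 := rfl

theorem hyp_symm {β : Z →L[ℝ] Z →L[ℝ] ℝ} (hs : ∀ x y, β x y = β y x)
    (x y : Z × V × (V →L[ℝ] ℝ)) : hyp V β x y = hyp V β y x := by
  rw [hyp_apply, hyp_apply, hs]; ring


theorem hyp_nd {β : Z →L[ℝ] Z →L[ℝ] ℝ} (hn : ∀ x, (∀ y, β x y = 0) → x = 0)
    (x : Z × V × (V →L[ℝ] ℝ)) (h : ∀ y, hyp V β x y = 0) : x = 0 := by
  refine Prod.ext (hn _ fun y => by simpa [hyp_apply] using h (y, 0, 0)) (Prod.ext ?_ ?_)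
  · exact SeparatingDual.eq_zero_of_forall_dual_eq_zero (R := ℝ) fun p => by
      simpa [hyp_apply] using h (0, 0, p)
  · ext v; simpa [hyp_apply] using h (0, v, 0)
end

end Crest.Agent.N218.C
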