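import Crest.Agent.N218.A.Rs0
import Crest.Agent.N218.A.Emb
import Crest.Agent.N218.A.ToC
import Crest.Agent.N218.C.Df2
import Crest.Agent.R216.ParamInt
import Crest.Agent.N218.C.Defs
import Mathlib

-- ▼ part N218/A/Rs
section

/-!
# Row 218 (helper86): the homotopies `k_s` (downward flow) and `r_s` (from the identity to `r`)
-/

set_option autoImplicit false
open Set Filter Topology
open scoped ContDiff RealInnerProductSpace
open Crest.GeometryTopology.CotangentSpheres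

noncomputable section

namespace Crest.Agent.N218.A

namespace Rs

variable {X Y : Type} [NormedAddCommGroup X] [NormedSpace ℝ X] [NormedAddCommGroup Y]
  [InnerProductSpace ℝ Y] [FiniteDimensional ℝ Y]

/-- flow down, then undo the flow under `r` -/
def rsOf (r : X × Y → Y) (k : ℝ × X × Y → Y) (z : ℝ × X × Y) : Y :=
  k (min (2 * z.1) 1, z.2) + (r (z.2.1, k (min (2 - 2 * z.1) 1, z.2)) - r (z.2.1, k (1, z.2)))

/-- a homotopy from the identity to `r` on `{ρ ≤ w}` -/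
structure Ho (ρ : X × Y → ℝ) (r : X × Y → Y) (w : ℝ) (S : Set X) (h : ℝ × X × Y → Y) : Prop where
  co : Continuous h
  ze : ∀ x y, h (0, x, y) = y
  on : ∀ x ∈ S, ∀ y, ρ (x, y) ≤ w → h (1, x, y) = r (x, y)
  id : ∀ s, ∀ x ∈ S, ∀ y, ρ (x, y) ≤ 0 → h (s, x, y) = y
  le : ∀ s ∈ Icc (0 : ℝ) 1, ∀ x ∈ S, ∀ y, ρ (x, y) ≤ w → ρ (x, h (s, x, y)) ≤ ρ (x, y)
  lt : ∀ s ∈ Ioc (0 : ℝ) 1, ∀ x ∈ S, ∀ y, 0 < ρ (x, y) → ρ (x, y) ≤ w →
    ρ (x, h (s, x, y)) < ρ (x, y)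

variable {ρ : X × Y → ℝ} {r : X × Y → Y} {w C : ℝ} {S : Set X} {k : ℝ × X × Y → Y}

theorem Dn.le (h : Dn ρ w S k C) {s : ℝ} (hs : s ∈ Icc (0 : ℝ) 1) {x : X} (hx : x ∈ S) {y : Y}
    (a : ρ (x, y) ≤ w) : ρ (x, k (s, x, y)) ≤ ρ (x, y) := by
  rw [h.ro s hs x hx y a]; exact sub_le_self _ (mul_nonneg hs.1 (le_max_right _ _))

theorem Dn.one (h : Dn ρ w S k C) {x : X} (hx : x ∈ S) {y : Y} (a : ρ (x, y) ≤ w) :
    ρ (x, k (1, x, y)) ≤ 0 := by
  rw [h.ro 1 (by simp) x hx y a, one_mul, sub_nonpos]; exact le_max_left _ _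

omit [NormedSpace ℝ X] [InnerProductSpace ℝ Y] [FiniteDimensional ℝ Y] [NormedAddCommGroup X] in
theorem rsOf_lo {s : ℝ} (hs : s ≤ 1 / 2) (x : X) (y : Y) : rsOf r k (s, x, y) = k (2 * s, x, y) := by
  simp only [rsOf]
  rw [min_eq_left (by linarith), min_eq_right (by linarith), sub_self, add_zero]

theorem Dn.hi (h : Dn ρ w S k C) (fix : ∀ x ∈ S, ∀ y, ρ (x, y) ≤ 0 → r (x, y) = y) {s : ℝ}
    (hs : 1 / 2 ≤ s) {x : X} (hx : x ∈ S) {y : Y} (a : ρ (x, y) ≤ w) :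
    rsOf r k (s, x, y) = r (x, k (2 - 2 * s, x, y)) := by
  simp only [rsOf]
  rw [min_eq_right (by linarith), min_eq_left (by linarith), fix x hx _ (h.one hx a)]
  abel

/-- every function that decreases under `k` and `r` decreases under `rsOf r k` -/
theorem Dn.mono_rs (h : Dn ρ w S k C) (fix : ∀ x ∈ S, ∀ y, ρ (x, y) ≤ 0 → r (x, y) = y) {x : X}
    (hx : x ∈ S) {G : Y → ℝ} (h1 : ∀ s ∈ Icc (0 : ℝ) 1, ∀ y, ρ (x, y) ≤ w → G (k (s, x, y)) ≤ G y)
    (h2 : ∀ y, ρ (x, y) ≤ w → G (r (x, y)) ≤ G y) {s : ℝ} (hs : s ∈ Icc (0 : ℝ) 1) {y : Y}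
    (a : ρ (x, y) ≤ w) : G (rsOf r k (s, x, y)) ≤ G y := by
  rcases le_total s (1 / 2) with b | b
  · rw [rsOf_lo b]; exact h1 _ ⟨by linarith [hs.1], by linarith⟩ y a
  have c : 2 - 2 * s ∈ Icc (0 : ℝ) 1 := ⟨by linarith [hs.2], by linarith⟩
  rw [h.hi fix b hx a]
  exact (h2 _ ((h.le c hx a).trans a)).trans (h1 _ c y a)

theorem Dn.ho (h : Dn ρ w S k C) (hr : Continuous r)
    (fix : ∀ x ∈ S, ∀ y, ρ (x, y) ≤ 0 → r (x, y) = y)
    (dec : ∀ x ∈ S, ∀ y, 0 < ρ (x, y) → ρ (x, y) ≤ w → ρ (x, r (x, y)) < ρ (x, y)) :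
    Ho ρ r w S (rsOf r k) := by
  have := h.co
  have rl : ∀ x ∈ S, ∀ y, ρ (x, y) ≤ w → ρ (x, r (x, y)) ≤ ρ (x, y) := fun x hx y a => by
    rcases le_or_gt (ρ (x, y)) 0 with b | b
    · rw [fix x hx y b]
    · exact (dec x hx y b a).le
  refine ⟨by unfold rsOf; fun_prop, fun x y => by rw [rsOf_lo (by norm_num), mul_zero, h.ze],
    fun x hx y a => by rw [h.hi fix (by norm_num) hx a, mul_one, sub_self, h.ze],
    fun s x _ y a => by simp [rsOf, h.id _ x y a], fun s hs x hx y a =>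
      h.mono_rs fix hx (G := fun y => ρ (x, y)) (fun s hs y a => h.le hs hx a) (rl x hx) hs a,
    fun s hs x hx y a b => ?_⟩
  rcases le_total s (1 / 2) with c | c
  · rw [rsOf_lo c, h.ro _ ⟨by linarith [hs.1], by linarith⟩ x hx y b, max_eq_left a.le]
    nlinarith [mul_pos hs.1 a]
  have d : 2 - 2 * s ∈ Icc (0 : ℝ) 1 := ⟨by linarith [hs.2], by linarith⟩
  have e := h.le d hx b
  rw [h.hi fix c hx b]
  rcases le_or_gt (ρ (x, k (2 - 2 * s, x, y))) 0 with f | f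
  · rw [fix x hx _ f]; exact f.trans_lt a
  · exact (dec x hx _ f (e.trans b)).trans_le e


end Rs

/-- `G0` decreases under the family `h` -/
def Dec (G0 : C.V × C.Y → ℝ) (ρ : C.X × C.Y → ℝ) (w : ℝ) (h : ℝ × C.X × C.Y → C.Y) : Prop :=
  ∀ s ∈ Icc (0 : ℝ) 1, ∀ q ∈ C.Us, ∀ y, ρ ((C.nn q).2, y) ≤ w →
    G0 (q, h (s, (C.nn q).2, y)) ≤ G0 (q, y)

/-- `γ` decreases under the family `h` -/
def DecG {Z : Type} (ρ : C.X × C.Y → ℝ) (w : ℝ) (ξ : C.X × Z → C.X) (γ : C.X × C.Fb Z → ℝ)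
    (h : ℝ × C.X × C.Y → C.Y) : Prop :=
  ∀ s ∈ Icc (0 : ℝ) 1, ∀ x z y, ‖x‖ = 1 → ρ (ξ (x, z), y) ≤ w →
    γ (x, WithLp.toLp 2 (h (s, ξ (x, z), y), z)) ≤ γ (x, WithLp.toLp 2 (y, z))

theorem Dec.uni {Z : Type} {G0 : C.V × C.Y → ℝ} {ρ : C.X × C.Y → ℝ} {w : ℝ}
    {h : ℝ × C.X × C.Y → C.Y} (d : Dec G0 ρ w h) {ξ : C.X × Z → C.X} {γ : C.X × C.Fb Z → ℝ}
    (u : C.Uni G0 ξ γ) : DecG ρ w ξ γ h :=
  fun s hs x z y hx a => u x z y _ hx fun q hq e => by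
    rw [← e] at a ⊢; exact d s hs q hq y a

theorem Fam.exists_dn (Φ : Fam) : ∃ k C, 0 ≤ C ∧ Rs.Dn Φ.ρ Φ.w (Metric.sphere 0 1) k C :=
  Rs.exists_dn Φ.ρ_smooth (isCompact_sphere _ _)
    (fun x hx y a b => Φ.reg x y (by simpa using hx) (by rwa [abs_of_nonneg a]))
    fun x hx y a => (Φ.bdd x y (by simpa using hx) a).le

theorem Fam.ho (Φ : Fam) {k : ℝ × Eu 11 × Eu 9 → Eu 9} {c : ℝ}
    (h : Rs.Dn Φ.ρ Φ.w (Metric.sphere 0 1) k c) :
    Rs.Ho Φ.ρ Φ.r Φ.w (Metric.sphere 0 1) (Rs.rsOf Φ.r k) :=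
  h.ho Φ.r_smooth.continuous (fun x hx y => Φ.r_id x y (by simpa using hx))
    fun x hx => (Φ.r_lt x · (by simpa using hx))

theorem Fam.dec {Φ : Fam} {ι : Sph 9 × Sph 11 → Amb 11} {G : VQ × Eu 9 → ℝ} (o : Φ.Out ι G)
    (l : Φ.Col G) {k : ℝ × Eu 11 × Eu 9 → Eu 9} {c : ℝ}
    (h : Rs.Dn Φ.ρ Φ.w (Metric.sphere 0 1) k c) :
    Dec (fun x => G (C.nn x.1, x.2)) Φ.ρ Φ.w k ∧
      Dec (fun x => G (C.nn x.1, x.2)) Φ.ρ Φ.w (Rs.rsOf Φ.r k) := by
  have m : ∀ q ∈ C.Us, (C.nn q).2 ∈ Metric.sphere (0 : Eu 11) 1 := fun q hq => by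
    simpa using (C.nn_norm hq).2
  have d := o.smooth.differentiable (by simp)
  have a : Dec (fun x => G (C.nn x.1, x.2)) Φ.ρ Φ.w k := fun s hs q hq y b =>
    h.mo _ (m q hq) (fun y => G (C.nn q, y)) (by fun_prop) (fun y i j => by
      rw [← Rs.vgr_eq Φ.ρ_smooth]
      exact (l _ y (C.nn_norm hq) i j).trans_eq (ContinuousLinearMap.ext_iff.1
        ((d (C.nn q, y)).hasFDerivAt.comp y (hasFDerivAt_prodMk_right (C.nn q) y)).fderiv _).symm) s hs y b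
  exact ⟨a, fun s hs q hq y b => h.mono_rs (fun x hx y => Φ.r_id x y (by simpa using hx)) (m q hq)
    (G := fun y => G (C.nn q, y)) (fun s hs => a s hs q hq) (o.mono _ · (C.nn_norm hq)) hs b⟩

/-- **blocks A0 and C together**: the embedding, and the dynamics of an isotopy -/
def AC : Prop := ∀ Φ : Fam, ∃ ι, IsExactLagEmbedding 11 ι ∧
  ∀ F, C.Iso F → F 0 = zeroSection 11 → range (F 1) = range ι →
    ∃ (M : ℕ) (c : ℝ) (B : C.Eu M →L[ℝ] C.Eu M) (ξ : _) (γ : _) (gr : _) (zz : _)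
      (k : ℝ × Eu 11 × Eu 9 → Eu 9) (c' : ℝ),
      C.Dyn Φ.ρ Φ.r Φ.w c B ξ γ gr zz ∧ (∀ x p, ‖x‖ = 1 → |γ (x, p)| ≤ c) ∧ 0 ≤ c' ∧
      Rs.Dn Φ.ρ Φ.w (Metric.sphere 0 1) k c' ∧ DecG Φ.ρ Φ.w ξ γ k ∧
      DecG Φ.ρ Φ.w ξ γ (Rs.rsOf Φ.r k)

theorem ac_of (hL : LAG) (hP : PAR) (hC : C.CM2) : AC := fun Φ => by
  obtain ⟨ι, G, o, -, l⟩ := a0x_of hL hP Φ
  obtain ⟨k, c', h0, h⟩ := Φ.exists_dn
  refine ⟨ι, o.emb, fun F a b c => ?_⟩
  obtain ⟨M, c, B, ξ, γ, gr, zz, d, u, e⟩ := hC _ _ _ _ _ _ F o.toC a b c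
  exact ⟨M, c, B, ξ, γ, gr, zz, k, c', d, e, h0, h, (Fam.dec o l h).1.uni u, (Fam.dec o l h).2.uni u⟩

end Crest.Agent.N218.A
end
end

-- ▼ part N218/C/Prim
section

/-! # N218/C/Prim (helper48): primitives of a smooth family of exact forms are jointly smooth;
the projection to a sphere -/

set_option autoImplicit false

open Set Filter Topology Metric
open scoped ContDiff Manifold

noncomputable section

namespace Crest.Agent.N218.C

section prim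
variable {S V : Type*} [NormedAddCommGroup S] [NormedSpace ℝ S] [NormedAddCommGroup V]
  [NormedSpace ℝ V] [FiniteDimensional ℝ V] {N : Set V} {α : S × V → V →L[ℝ] ℝ} {H : S → V → ℝ}

theorem prim_loc (hN : IsOpen N) (hα : ContDiffOn ℝ ∞ α (univ ×ˢ N))
    (hH : ∀ s, ∀ l ∈ N, HasFDerivAt (H s) (α (s, l)) l) {l₁ : V} (h1 : l₁ ∈ N) :
    ∃ r > 0, ContDiffOn ℝ ∞ (fun p : S × V => H p.1 p.2 - H p.1 l₁) (univ ×ˢ ball l₁ r) := by
  obtain ⟨r, r0, hr⟩ := Metric.isOpen_iff.1 hN l₁ h1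
  let φ : ContDiffBump l₁ := ⟨r / 4, r / 2, by positivity, by linarith⟩
  set c : V → V := fun l => l₁ + φ l • (l - l₁) with hc
  have c1 : ∀ l, c l ∈ N := fun l => hr (by
    rw [mem_ball_iff_norm, hc]
    simp only [add_sub_cancel_left, norm_smul, Real.norm_eq_abs, abs_of_nonneg φ.nonneg]
    by_cases h : φ l = 0
    · simpa [h] using r0
    · have h2 : l ∈ ball l₁ (r / 2) := φ.support_eq ▸ (h : l ∈ Function.support φ)
      rw [mem_ball_iff_norm] at h2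
      nlinarith [φ.le_one (x := l), norm_nonneg (l - l₁), φ.nonneg (x := l)])
  have c2 : ∀ l ∈ ball l₁ (r / 4), c l = l := fun l hl => by
    simp [hc, φ.one_of_mem_closedBall (ball_subset_closedBall hl)]
  have sc : ContDiff ℝ ∞ c := contDiff_const.add (φ.contDiff.smul (contDiff_id.sub contDiff_const))
  have sa : ContDiff ℝ ∞ fun p : S × V => α (p.1, c p.2) :=
    hα.comp_contDiff (contDiff_fst.prodMk (sc.comp contDiff_snd)) fun p => ⟨trivial, c1 _⟩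
  have si := Crest.Agent.R216.contDiff_param_integral (n := ⊤) (h := fun (p : S × V) (t : ℝ) =>
    α (p.1, c (l₁ + t • (p.2 - l₁))) (p.2 - l₁)) 0 1
    ((sa.comp (f := fun q : (S × V) × ℝ => (q.1.1, l₁ + q.2 • (q.1.2 - l₁))) (by fun_prop)).clm_apply
      (g := fun q : (S × V) × ℝ => q.1.2 - l₁) (by fun_prop))
  refine ⟨r / 4, by positivity, si.contDiffOn.congr fun p hp => ?_⟩
  have m : ∀ t ∈ uIcc (0 : ℝ) 1, l₁ + t • (p.2 - l₁) ∈ ball l₁ (r / 4) := fun t ht => by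
    rw [uIcc_of_le zero_le_one] at ht
    have h2 := mem_ball_iff_norm.1 hp.2
    rw [mem_ball_iff_norm, add_sub_cancel_left, norm_smul, Real.norm_eq_abs, abs_of_nonneg ht.1]
    nlinarith [ht.1, ht.2, norm_nonneg (p.2 - l₁)]
  rw [intervalIntegral.integral_eq_sub_of_hasDerivAt
    (f := fun t => H p.1 (l₁ + t • (p.2 - l₁)))
    (f' := fun t => α (p.1, c (l₁ + t • (p.2 - l₁))) (p.2 - l₁)) (fun t ht => by
      rw [c2 _ (m t ht)]
      have := (hH p.1 _ (c2 _ (m t ht) ▸ c1 _)).comp_hasDerivAt t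
        (((hasDerivAt_id t).smul_const (p.2 - l₁)).const_add l₁)
      simpa [Function.comp_def] using this) (Continuous.intervalIntegrable ((sa.continuous.comp
        (f := fun t : ℝ => (p.1, l₁ + t • (p.2 - l₁))) (by fun_prop)).clm_apply continuous_const) _ _)]
  simp

/-- **primitives are jointly smooth** -/
theorem prim (hN : IsOpen N) (hc : IsPreconnected N) (hα : ContDiffOn ℝ ∞ α (univ ×ˢ N))
    (hH : ∀ s, ∀ l ∈ N, HasFDerivAt (H s) (α (s, l)) l) {l₀ : V} (h0 : l₀ ∈ N) :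
    ContDiffOn ℝ ∞ (fun p : S × V => H p.1 p.2 - H p.1 l₀) (univ ×ˢ N) := by
  have k : ∀ l ∈ N, ContDiff ℝ ∞ fun s => H s l - H s l₀ := fun l hl =>
    hc.induction₂ (fun a b => ContDiff ℝ ∞ fun s => H s b - H s a) (fun x hx => by
      obtain ⟨r, r0, h⟩ := prim_loc hN hα hH hx
      filter_upwards [mem_nhdsWithin_of_mem_nhds (ball_mem_nhds x r0)] with y hy
      exact h.comp_contDiff (f := fun s => (s, y)) (by fun_prop) fun s => ⟨trivial, hy⟩)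
      (fun x y z _ _ _ a b => by simpa using b.add a)
      (fun x y _ _ a => by simpa using a.neg) h0 hl
  rintro ⟨s, l⟩ ⟨-, hl⟩
  obtain ⟨r, r0, h⟩ := prim_loc hN hα hH hl
  have := (h.contDiffAt ((isOpen_univ.prod isOpen_ball).mem_nhds
    (mk_mem_prod (mem_univ s) (mem_ball_self r0)))).add
    (((k l hl).comp contDiff_fst).contDiffAt (x := (s, l)))
  simpa using this.contDiffWithinAt

end prim

section sph
variable {k : ℕ}

/-- the projection to the unit sphere -/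
def pr (x : EuclideanSpace ℝ (Fin (k + 1))) : sphere (0 : EuclideanSpace ℝ (Fin (k + 1))) 1 :=
  open Classical in
  if h : x = 0 then ⟨EuclideanSpace.single 0 1, by simp⟩
  else ⟨‖x‖⁻¹ • x, by simp [norm_smul, h]⟩

theorem pr_val {x : EuclideanSpace ℝ (Fin (k + 1))} (h : x ≠ 0) : (pr x).1 = ‖x‖⁻¹ • x := by
  simp [pr, h]

theorem pr_coe (x : sphere (0 : EuclideanSpace ℝ (Fin (k + 1))) 1) : pr x.1 = x :=
  Subtype.ext (by rw [pr_val (ne_zero_of_mem_unit_sphere x)]; simp)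

theorem pr_smul (x : sphere (0 : EuclideanSpace ℝ (Fin (k + 1))) 1) {r : ℝ} (h : 0 < r) :
    pr (r • x.1) = x :=
  Subtype.ext (by
    rw [pr_val (smul_ne_zero h.ne' (ne_zero_of_mem_unit_sphere x))]
    simp [norm_smul, abs_of_pos h, smul_smul, h.ne'])

theorem smul_pr (x : EuclideanSpace ℝ (Fin (k + 1))) : ‖x‖ • (pr x).1 = x := by
  by_cases h : x = 0
  · simp [h]
  · rw [pr_val h, smul_smul, mul_inv_cancel₀ (norm_ne_zero_iff.2 h), one_smul]

theorem contDiffAt_nz {E : Type*} [NormedAddCommGroup E] [InnerProductSpace ℝ E] {x : E}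
    (h : x ≠ 0) : ContDiffAt ℝ ∞ (fun y : E => ‖y‖⁻¹ • y) x :=
  ((contDiffAt_norm ℝ h).inv (norm_ne_zero_iff.2 h)).smul contDiffAt_id

theorem pr_smooth {x : EuclideanSpace ℝ (Fin (k + 1))} (h : x ≠ 0) :
    ContMDiffAt 𝓘(ℝ, EuclideanSpace ℝ (Fin (k + 1))) (𝓡 k) ∞ pr x := by
  have : Fact (Module.finrank ℝ (EuclideanSpace ℝ (Fin (k + 1))) = k + 1) := ⟨by simp⟩
  let U : TopologicalSpace.Opens (EuclideanSpace ℝ (Fin (k + 1))) := ⟨{0}ᶜ, isOpen_compl_singleton⟩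
  have h1 : ContMDiff 𝓘(ℝ, EuclideanSpace ℝ (Fin (k + 1))) 𝓘(ℝ, EuclideanSpace ℝ (Fin (k + 1))) ∞
      fun y : U => ‖y.1‖⁻¹ • y.1 := fun y =>
    (contMDiffAt_subtype_iff (f := fun y : EuclideanSpace ℝ (Fin (k + 1)) => ‖y‖⁻¹ • y)).2
      (contDiffAt_nz y.2).contMDiffAt
  have h2 := h1.codRestrict_sphere (n := k) fun y => by
    have : y.1 ≠ 0 := y.2
    simp [norm_smul, this]
  refine (contMDiffAt_subtype_iff (U := U) (x := ⟨x, h⟩)).1 ?_
  exact (h2 ⟨x, h⟩).congr_of_eventuallyEq (.of_forall fun y => Subtype.ext (pr_val y.2))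

end sph

end Crest.Agent.N218.C

end
end

-- ▼ part N218/C/Cone
section

/-!
# Row 218, block C, leaves C0 + C1 (helper28): the cone of a family of exact Lagrangian embeddings
-/

set_option autoImplicit false

open scoped ContDiff Topology Manifold RealInnerProductSpace
open Set Filter Metric Function
open Crest.GeometryTopology.CotangentSpheres

noncomputable section

namespace Crest.Agent.N218.C

namespace C0

section
variable {E : Type*} [NormedAddCommGroup E] [NormedSpace ℝ E]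


theorem euc_rank (k : ℕ) : 1 < Module.rank ℝ (EuclideanSpace ℝ (Fin (k + 2))) := by
  rw [← Module.finrank_eq_rank, finrank_euclideanSpace_fin]
  exact_mod_cast (by omega : 1 < k + 2)

/-- the complement of the origin is connected in dimension `> 1` -/
theorem ne_conn (h : 1 < Module.rank ℝ E) : IsPreconnected {y : E | y ≠ 0} :=
  (isConnected_compl_singleton_of_one_lt_rank h 0).isPreconnected

end

/-- the ambient space of the base -/
abbrev VV := EuclideanSpace ℝ (Fin (9 + 1)) × EuclideanSpace ℝ (Fin (11 + 1))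

/-- both blocks are non-zero -/
def NN : Set VV := {l | l.1 ≠ 0 ∧ l.2 ≠ 0}

theorem NN_open : IsOpen NN :=
  (isOpen_ne_fun continuous_fst continuous_const).inter
    (isOpen_ne_fun continuous_snd continuous_const)

theorem NN_conn : IsPreconnected NN := (ne_conn (euc_rank 8)).prod (ne_conn (euc_rank 10))

/-- blockwise projection to the spheres -/
def prs (l : VV) : Sph 9 × Sph 11 := (pr l.1, pr l.2)

theorem prs_smooth {l : VV} (h : l ∈ NN) :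
    ContMDiffAt 𝓘(ℝ, VV) ((𝓡 9).prod (𝓡 11)) ∞ prs l :=
  ((pr_smooth h.1).comp l (contDiffAt_fst (𝕜 := ℝ)).contMDiffAt).prodMk
    ((pr_smooth h.2).comp l (contDiffAt_snd (𝕜 := ℝ)).contMDiffAt)

/-- the pairing of `VV` with itself -/
def cov : VV →L[ℝ] VV →L[ℝ] ℝ :=
  (innerSL ℝ).bilinearComp (ContinuousLinearMap.fst ℝ _ _) (ContinuousLinearMap.fst ℝ _ _) +
    (innerSL ℝ).bilinearComp (ContinuousLinearMap.snd ℝ _ _) (ContinuousLinearMap.snd ℝ _ _)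

theorem cov_apply (p w : VV) : cov p w = ⟪p.1, w.1⟫ + ⟪p.2, w.2⟫ := rfl

/-- blockwise scaling of `T^* V` -/
def scl (a b : ℝ) (z : Amb 11) : Amb 11 := ((a • z.1.1, b • z.1.2), (a⁻¹ • z.2.1, b⁻¹ • z.2.2))

/-- the cone of one map -/
def cone (ι : Sph 9 × Sph 11 → Amb 11) (l : VV) : Amb 11 := scl ‖l.1‖ ‖l.2‖ (ι (prs l))

theorem scl_scl {a b : ℝ} (ha : a ≠ 0) (hb : b ≠ 0) (z : Amb 11) :
    scl a⁻¹ b⁻¹ (scl a b z) = z := by
  simp [scl, smul_smul, ha, hb]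

theorem scl_smooth {X : Type*} [NormedAddCommGroup X] [NormedSpace ℝ X] {n : WithTop ℕ∞}
    {a b : X → ℝ} {z : X → Amb 11} {x : X} (ha : ContDiffAt ℝ n a x) (hb : ContDiffAt ℝ n b x)
    (hz : ContDiffAt ℝ n z x) (a0 : a x ≠ 0) (b0 : b x ≠ 0) :
    ContDiffAt ℝ n (fun x => scl (a x) (b x) (z x)) x :=
  ((ha.smul hz.fst.fst).prodMk (hb.smul hz.fst.snd)).prodMk
    (((ha.inv a0).smul hz.snd.fst).prodMk ((hb.inv b0).smul hz.snd.snd))

theorem n1_smooth {l : VV} (h : l ∈ NN) : ContDiffAt ℝ ∞ (fun l : VV => ‖l.1‖) l :=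
  (contDiffAt_norm ℝ h.1).comp l contDiffAt_fst

theorem n2_smooth {l : VV} (h : l ∈ NN) : ContDiffAt ℝ ∞ (fun l : VV => ‖l.2‖) l :=
  (contDiffAt_norm ℝ h.2).comp l contDiffAt_snd

section one
variable {ι : Sph 9 × Sph 11 → Amb 11}

theorem cone_n1 (h : ∀ q, InCotangent 11 (ι q)) (l : VV) : ‖(cone ι l).1.1‖ = ‖l.1‖ := by
  simp [cone, scl, norm_smul, (h _).1]

theorem cone_n2 (h : ∀ q, InCotangent 11 (ι q)) (l : VV) : ‖(cone ι l).1.2‖ = ‖l.2‖ := by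
  simp [cone, scl, norm_smul, (h _).2.1]

theorem cone_NN (h : ∀ q, InCotangent 11 (ι q)) {l : VV} (hl : l ∈ NN) : (cone ι l).1 ∈ NN :=
  ⟨norm_ne_zero_iff.1 (cone_n1 h l ▸ norm_ne_zero_iff.2 hl.1),
    norm_ne_zero_iff.1 (cone_n2 h l ▸ norm_ne_zero_iff.2 hl.2)⟩

theorem cone_coe (ι : Sph 9 × Sph 11 → Amb 11) (q : Sph 9 × Sph 11) {a b : ℝ} (ha : 0 < a)
    (hb : 0 < b) : cone ι (a • q.1.1, b • q.2.1) = scl a b (ι q) := by
  simp only [cone, prs, pr_smul _ ha, pr_smul _ hb]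
  simp [norm_smul, abs_of_pos ha, abs_of_pos hb]

/-- the image of the cone map -/
theorem cone_image (ι : Sph 9 × Sph 11 → Amb 11) :
    cone ι '' NN = {z | ∃ a > 0, ∃ b > 0, ∃ y ∈ range ι, z = scl a b y} := by
  ext z
  constructor
  · rintro ⟨l, hl, rfl⟩
    exact ⟨_, norm_pos_iff.2 hl.1, _, norm_pos_iff.2 hl.2, _, ⟨_, rfl⟩, rfl⟩
  · rintro ⟨a, ha, b, hb, _, ⟨q, rfl⟩, rfl⟩
    exact ⟨_, ⟨smul_ne_zero ha.ne' (ne_zero_of_mem_unit_sphere q.1),
      smul_ne_zero hb.ne' (ne_zero_of_mem_unit_sphere q.2)⟩, cone_coe ι q ha hb⟩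


variable (h : IsExactLagEmbedding 11 ι)
include h

theorem cone_inj : InjOn (cone ι) NN := by
  intro l hl l' hl' e
  have e1 : ‖l.1‖ = ‖l'.1‖ := by rw [← cone_n1 h.mem l, e, cone_n1 h.mem]
  have e2 : ‖l.2‖ = ‖l'.2‖ := by rw [← cone_n2 h.mem l, e, cone_n2 h.mem]
  have e3 : ι (prs l) = ι (prs l') := by
    have := congrArg (scl ‖l.1‖⁻¹ ‖l.2‖⁻¹) e
    rwa [cone, cone, ← e1, ← e2, scl_scl (norm_ne_zero_iff.2 hl.1) (norm_ne_zero_iff.2 hl.2),
      scl_scl (norm_ne_zero_iff.2 hl.1) (norm_ne_zero_iff.2 hl.2)] at this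
  have e4 := h.injective e3
  refine Prod.ext ?_ ?_
  · rw [← smul_pr l.1, ← smul_pr l'.1, e1]; exact congrArg (fun q => ‖l'.1‖ • q.1.1) e4
  · rw [← smul_pr l.2, ← smul_pr l'.2, e2]; exact congrArg (fun q => ‖l'.2‖ • q.2.1) e4

theorem ip_smooth {l : VV} (hl : l ∈ NN) : ContDiffAt ℝ ∞ (fun l => ι (prs l)) l :=
  ((h.contMDiff _).comp l (prs_smooth hl)).contDiffAt

theorem cone_smooth {l : VV} (hl : l ∈ NN) : ContDiffAt ℝ ∞ (cone ι) l :=
  scl_smooth (n1_smooth hl) (n2_smooth hl) (ip_smooth h hl) (norm_ne_zero_iff.2 hl.1)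
    (norm_ne_zero_iff.2 hl.2)

omit h in
/-- chain rule through the spheres -/
theorem fd_prs {W : Type*} [NormedAddCommGroup W] [NormedSpace ℝ W] {g : Sph 9 × Sph 11 → W}
    (hg : ContMDiff ((𝓡 9).prod (𝓡 11)) 𝓘(ℝ, W) ∞ g) {l : VV} (hl : l ∈ NN) (v : VV) :
    fderiv ℝ (fun l => g (prs l)) l v = mfderiv ((𝓡 9).prod (𝓡 11)) 𝓘(ℝ, W) g (prs l)
      (mfderiv 𝓘(ℝ, VV) ((𝓡 9).prod (𝓡 11)) prs l v) := by
  rw [← mfderiv_eq_fderiv]
  exact ContinuousLinearMap.ext_iff.1 (mfderiv_comp l ((hg _).mdifferentiableAt (by simp))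
    ((prs_smooth hl).mdifferentiableAt (by simp))) v

theorem cone_imm {l : VV} (hl : l ∈ NN) : Injective (fderiv ℝ (cone ι) l) := by
  rw [injective_iff_map_eq_zero]
  intro v hv
  have dc := ((cone_smooth h hl).differentiableAt (by simp)).hasFDerivAt
  -- any smooth function of the cone has zero derivative along `v`
  have key : ∀ {W : Type} [NormedAddCommGroup W] [NormedSpace ℝ W] {g : Amb 11 → W} {k : VV → W},
      ContDiffAt ℝ ∞ g (cone ι l) → (∀ l ∈ NN, g (cone ι l) = k l) → fderiv ℝ k l v = 0 := by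
    intro W _ _ g k hg e
    have d := (hg.differentiableAt (by simp)).hasFDerivAt.comp l dc
    have e' : k =ᶠ[𝓝 l] g ∘ cone ι := by
      filter_upwards [NN_open.mem_nhds hl] with l' hl' using (e l' hl').symm
    rw [(d.congr_of_eventuallyEq e').fderiv]
    simp [hv]
  have c := cone_NN h.mem hl
  have s1 : ContDiffAt ℝ ∞ (fun z : Amb 11 => ‖z.1.1‖) (cone ι l) :=
    (n1_smooth c).comp _ contDiffAt_fst
  have s2 : ContDiffAt ℝ ∞ (fun z : Amb 11 => ‖z.1.2‖) (cone ι l) :=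
    (n2_smooth c).comp _ contDiffAt_fst
  have k1 := key s1 fun l _ => cone_n1 h.mem l
  have k2 := key s2 fun l _ => cone_n2 h.mem l
  have k3 := key (k := fun l => ι (prs l)) (scl_smooth (s1.inv (norm_ne_zero_iff.2 c.1))
    (s2.inv (norm_ne_zero_iff.2 c.2)) contDiffAt_id (inv_ne_zero (norm_ne_zero_iff.2 c.1))
    (inv_ne_zero (norm_ne_zero_iff.2 c.2))) fun l hl => by
      simp only [Pi.inv_apply, cone_n1 h.mem, cone_n2 h.mem, id]
      exact scl_scl (norm_ne_zero_iff.2 hl.1) (norm_ne_zero_iff.2 hl.2) _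
  rw [fd_prs h.contMDiff hl] at k3
  have k4 : mfderiv 𝓘(ℝ, VV) ((𝓡 9).prod (𝓡 11)) prs l v = 0 :=
    h.immersion _ (k3.trans (map_zero _).symm)
  have : Fact (Module.finrank ℝ (EuclideanSpace ℝ (Fin (9 + 1))) = 9 + 1) := ⟨by simp⟩
  have : Fact (Module.finrank ℝ (EuclideanSpace ℝ (Fin (11 + 1))) = 11 + 1) := ⟨by simp⟩
  have g1 : ContMDiff ((𝓡 9).prod (𝓡 11)) 𝓘(ℝ, EuclideanSpace ℝ (Fin (9 + 1))) ∞
      fun q : Sph 9 × Sph 11 => q.1.1 := contMDiff_coe_sphere.comp contMDiff_fst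
  have g2 : ContMDiff ((𝓡 9).prod (𝓡 11)) 𝓘(ℝ, EuclideanSpace ℝ (Fin (11 + 1))) ∞
      fun q : Sph 9 × Sph 11 => q.2.1 := contMDiff_coe_sphere.comp contMDiff_snd
  have k5 := fd_prs g1 hl v
  have k6 := fd_prs g2 hl v
  rw [k4, map_zero] at k5 k6
  have k7 : fderiv ℝ (fun l : VV => ((prs l).1 : EuclideanSpace ℝ (Fin (9 + 1)))) l v = 0 := k5
  have k8 : fderiv ℝ (fun l : VV => ((prs l).2 : EuclideanSpace ℝ (Fin (11 + 1)))) l v = 0 := k6
  have d1 := (((n1_smooth hl).differentiableAt (by simp)).hasFDerivAt.smul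
    ((((g1 _).comp l (prs_smooth hl)).contDiffAt.differentiableAt (by simp)).hasFDerivAt))
  have d2 := (((n2_smooth hl).differentiableAt (by simp)).hasFDerivAt.smul
    ((((g2 _).comp l (prs_smooth hl)).contDiffAt.differentiableAt (by simp)).hasFDerivAt))
  have e1 := ContinuousLinearMap.ext_iff.1 (d1.unique ((hasFDerivAt_fst (𝕜 := ℝ) (p := l)).congr_of_eventuallyEq
    (.of_forall fun l => smul_pr l.1))) v
  have e2 := ContinuousLinearMap.ext_iff.1 (d2.unique ((hasFDerivAt_snd (𝕜 := ℝ) (p := l)).congr_of_eventuallyEq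
    (.of_forall fun l => smul_pr l.2))) v
  simp only [Function.comp_def] at e1 e2
  refine Prod.ext ?_ ?_
  · simpa [k1, k7] using e1.symm
  · simpa [k2, k8] using e2.symm

/-- exactness of the cone -/
theorem cone_exact : ∃ H : VV → ℝ, (∀ l, H l = H ((prs l).1.1, (prs l).2.1)) ∧ ∀ l ∈ NN, HasFDerivAt H
    ((cov (cone ι l).2).comp (fderiv ℝ (fun l => (cone ι l).1) l)) l := by
  obtain ⟨H, hH, e⟩ := h.exact
  refine ⟨fun l => H (prs l), fun l => by simp only [prs, pr_coe], fun l hl => ?_⟩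
  have dH := (((hH _).comp l (prs_smooth hl)).contDiffAt.differentiableAt (by simp)).hasFDerivAt
  have g1 : ContMDiff ((𝓡 9).prod (𝓡 11)) 𝓘(ℝ, EuclideanSpace ℝ (Fin (9 + 1))) ∞
      fun q => (ι q).1.1 := (contDiff_fst.comp contDiff_fst).contMDiff.comp h.contMDiff
  have g2 : ContMDiff ((𝓡 9).prod (𝓡 11)) 𝓘(ℝ, EuclideanSpace ℝ (Fin (11 + 1))) ∞
      fun q => (ι q).1.2 := (contDiff_snd.comp contDiff_fst).contMDiff.comp h.contMDiff
  have d1 := (((n1_smooth hl).differentiableAt (by simp)).hasFDerivAt.smul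
    ((((g1 _).comp l (prs_smooth hl)).contDiffAt.differentiableAt (by simp)).hasFDerivAt))
  have d2 := (((n2_smooth hl).differentiableAt (by simp)).hasFDerivAt.smul
    ((((g2 _).comp l (prs_smooth hl)).contDiffAt.differentiableAt (by simp)).hasFDerivAt))
  have d3 : HasFDerivAt (fun l => (cone ι l).1) _ l := d1.prodMk d2
  rw [d3.fderiv]
  refine dH.congr_fderiv (ContinuousLinearMap.ext fun v => Eq.symm ?_)
  have m := h.mem (prs l)
  have i1 : ⟪(ι (prs l)).2.1, (ι (prs l)).1.1⟫ = 0 := by rw [real_inner_comm]; exact m.2.2.1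
  have i2 : ⟪(ι (prs l)).2.2, (ι (prs l)).1.2⟫ = 0 := by rw [real_inner_comm]; exact m.2.2.2
  simp only [Function.comp_def]
  rw [fd_prs hH hl, e, ← fd_prs g1 hl, ← fd_prs g2 hl]
  simp [cov_apply, cone, scl, inner_add_right, inner_smul_left, inner_smul_right, i1, i2,
    norm_ne_zero_iff.2 hl.1, norm_ne_zero_iff.2 hl.2]

end one

section fam
variable {F : ℝ → Sph 9 × Sph 11 → Amb 11}
  (hF : ContMDiff (𝓘(ℝ, ℝ).prod ((𝓡 9).prod (𝓡 11))) 𝓘(ℝ, Amb 11) ∞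
    (fun p : ℝ × (Sph 9 × Sph 11) => F p.1 p.2))
include hF

theorem fam_smooth : ContDiffOn ℝ ∞ (fun p : ℝ × VV => cone (F p.1) p.2) (univ ×ˢ NN) := by
  rintro p ⟨-, hl⟩
  have a1 : ContMDiffAt 𝓘(ℝ, ℝ × VV) (𝓘(ℝ, ℝ).prod ((𝓡 9).prod (𝓡 11))) ∞
      (fun p : ℝ × VV => (p.1, prs p.2)) p :=
    (contDiffAt_fst (𝕜 := ℝ)).contMDiffAt.prodMk
      ((prs_smooth hl).comp p (contDiffAt_snd (𝕜 := ℝ)).contMDiffAt)
  have a2 : ContDiffAt ℝ ∞ (fun p : ℝ × VV => F p.1 (prs p.2)) p :=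
    ((hF _).comp p a1).contDiffAt
  exact (scl_smooth ((n1_smooth hl).comp p contDiffAt_snd) ((n2_smooth hl).comp p contDiffAt_snd)
    a2 (norm_ne_zero_iff.2 hl.1) (norm_ne_zero_iff.2 hl.2)).contDiffWithinAt

/-- **C1**: jointly smooth potentials of the cones -/
theorem fam_pot (hE : ∀ s, IsExactLagEmbedding 11 (F s)) :
    ∃ H : ℝ × VV → ℝ, ContDiffOn ℝ ∞ H (univ ×ˢ NN) ∧
      (∀ s l, H (s, l) = H (s, ((prs l).1.1, (prs l).2.1))) ∧ ∀ s, ∀ l ∈ NN,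
      HasFDerivAt (fun l => H (s, l))
        ((cov (cone (F s) l).2).comp (fderiv ℝ (fun l => (cone (F s) l).1) l)) l := by
  choose H H0 hH using fun s => cone_exact (hE s)
  have sm := fam_smooth hF
  have op : IsOpen ((univ : Set ℝ) ×ˢ NN) := isOpen_univ.prod NN_open
  have s1 : ContDiffOn ℝ ∞ (fun p : ℝ × VV => (cone (F p.1) p.2).1) (univ ×ˢ NN) := sm.fst
  have s2 : ContDiffOn ℝ ∞ (fun p : ℝ × VV => (cov (cone (F p.1) p.2).2).comp
      ((fderiv ℝ (fun p : ℝ × VV => (cone (F p.1) p.2).1) p).comp (ContinuousLinearMap.inr ℝ ℝ VV)))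
      (univ ×ˢ NN) :=
    (cov.contDiff.comp_contDiffOn sm.snd).clm_comp
      ((s1.fderiv_of_isOpen op (by simp)).clm_comp contDiffOn_const)
  have e : ∀ s, ∀ l ∈ NN, fderiv ℝ (fun l => (cone (F s) l).1) l =
      (fderiv ℝ (fun p : ℝ × VV => (cone (F p.1) p.2).1) (s, l)).comp
        (ContinuousLinearMap.inr ℝ ℝ VV) := fun s l hl =>
    (((s1.contDiffAt (op.mem_nhds ⟨trivial, hl⟩)).differentiableAt (by simp)).hasFDerivAt.comp l
      (hasFDerivAt_prodMk_right s l)).fderiv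
  let l₀ : VV := (EuclideanSpace.single 0 1, EuclideanSpace.single 0 1)
  have h0 : l₀ ∈ NN := ⟨by simp [l₀], by simp [l₀]⟩
  refine ⟨_, prim NN_open NN_conn s2 (H := H) (fun s l hl => e s l hl ▸ hH s l hl) h0,
    fun s l => by simp only [← H0], fun s l hl => (hH s l hl).sub_const (H s l₀)⟩

end fam

theorem cov_inj {p : VV} (h : cov p = 0) : p = 0 := by
  have := ContinuousLinearMap.ext_iff.1 h p
  rw [cov_apply, real_inner_self_eq_norm_sq, real_inner_self_eq_norm_sq] at this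
  have h0 : ‖p.1‖ ^ 2 + ‖p.2‖ ^ 2 = 0 := this
  have h1 : ‖p.1‖ ^ 2 = 0 := by nlinarith [sq_nonneg ‖p.1‖, sq_nonneg ‖p.2‖]
  have h2 : ‖p.2‖ ^ 2 = 0 := by nlinarith [sq_nonneg ‖p.1‖, sq_nonneg ‖p.2‖]
  exact Prod.ext (by simpa using h1) (by simpa using h2)

theorem Lc_range (ι : Sph 9 × Sph 11 → Amb 11) :
    Lc (range ι) = (fun l => ((cone ι l).1, cov (cone ι l).2)) '' Nz := by
  have e : (fun l => ((cone ι l).1, cov (cone ι l).2)) '' Nz =
      (fun z : Amb 11 => (z.1, cov z.2)) '' (cone ι '' NN) := by rw [image_image]; rfl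
  rw [e, cone_image]
  ext z
  constructor
  · rintro ⟨y, hy, a, b, ha, hb, e1, e2⟩
    refine ⟨_, ⟨a, ha, b, hb, y, hy, rfl⟩, Prod.ext e1.symm (ContinuousLinearMap.ext fun w => ?_)⟩
    rw [e2]
    simp [cov_apply, scl, inner_smul_left]
  · rintro ⟨_, ⟨a, ha, b, hb, y, hy, rfl⟩, rfl⟩
    exact ⟨y, hy, a, b, ha, hb, rfl, fun w => by simp [cov_apply, scl, inner_smul_left]⟩

end C0

open C0 in
/-- **C0 + C1** -/
theorem cone : CONE := by
  intro F hF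
  obtain ⟨H, sH, -, dH⟩ := fam_pot hF.1 hF.2
  have sm := fam_smooth hF.1
  refine ⟨fun p => (C0.cone (F p.1) p.2).1, fun p => cov (C0.cone (F p.1) p.2).2, H, sm.fst,
    cov.contDiff.comp_contDiffOn sm.snd, sH,
    fun s l _ => ⟨cone_n1 (hF.2 s).mem l, cone_n2 (hF.2 s).mem l⟩, fun s => Lc_range _,
    fun s l hl l' hl' e => ?_, fun s l hl v e1 e2 => ?_, fun s l hl v => ?_⟩
  · refine cone_inj (hF.2 s) hl hl' (Prod.ext (Prod.ext_iff.1 e).1 (sub_eq_zero.1 (cov_inj ?_)))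
    rw [map_sub, sub_eq_zero]
    exact (Prod.ext_iff.1 e).2
  · have dc := ((cone_smooth (hF.2 s) hl).differentiableAt (by simp)).hasFDerivAt
    have d1 : HasFDerivAt (fun l => (C0.cone (F s) l).1) _ l := dc.fst
    have d2 : HasFDerivAt (fun l => cov (C0.cone (F s) l).2) _ l :=
      cov.hasFDerivAt.comp l dc.snd
    rw [d1.fderiv] at e1
    rw [d2.fderiv] at e2
    refine cone_imm (hF.2 s) hl ?_
    rw [map_zero]
    exact Prod.ext e1 (cov_inj e2)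
  · rw [(dH s l hl).fderiv]
    rfl

end Crest.Agent.N218.C
end
end

-- ▼ part N218/C/Jet
section

/-!
# Row 218, block C (helper7): functions with a prescribed 1-jet along a moving Lagrangian
-/

set_option autoImplicit false

open scoped ContDiff Topology Manifold
open Set Filter Metric Function

namespace Crest.Agent.N218.C

section
variable {E : Type*} [NormedAddCommGroup E] [NormedSpace ℝ E] [FiniteDimensional ℝ E]

/-- smooth local inverse -/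
theorem loc_inv {f : E → E} {U : Set E} (hU : IsOpen U) (hf : ContDiffOn ℝ ∞ f U) {x₀ : E}
    (hx : x₀ ∈ U) (hi : Injective (fderiv ℝ f x₀)) : ∃ (g : E → E) (O : Set E), IsOpen O ∧
      f x₀ ∈ O ∧ ContDiffOn ℝ ∞ g O ∧ (∀ᶠ x in 𝓝 x₀, g (f x) = x) ∧
      ∀ y ∈ O, g y ∈ U ∧ f (g y) = y := by
  have := FiniteDimensional.complete ℝ E
  have ha : ∀ x ∈ U, ContDiffAt ℝ ∞ f x := fun x h => hf.contDiffAt (hU.mem_nhds h)
  have hd : ∀ x ∈ U, HasFDerivAt f (fderiv ℝ f x) x := fun x h =>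
    ((ha x h).differentiableAt (by simp)).hasFDerivAt
  set A : E ≃L[ℝ] E :=
    (LinearEquiv.ofInjectiveEndo (fderiv ℝ f x₀ : E →ₗ[ℝ] E) hi).toContinuousLinearEquiv
  have hA : (A : E →L[ℝ] E) = fderiv ℝ f x₀ := rfl
  set e := (ha x₀ hx).toOpenPartialHomeomorph f (f' := A) (hA ▸ hd x₀ hx) (by simp)
  have he : (e : E → E) = f := rfl
  have hs : x₀ ∈ e.source := ContDiffAt.mem_toOpenPartialHomeomorph_source _ _ _
  have hV : IsOpen (U ∩ fderiv ℝ f ⁻¹' range ((↑) : (E ≃L[ℝ] E) → E →L[ℝ] E)) :=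
    (hf.continuousOn_fderiv_of_isOpen hU (by simp)).isOpen_inter_preimage hU
      ContinuousLinearEquiv.isOpen
  refine ⟨e.symm, _, e.isOpen_inter_preimage_symm hV, ⟨e.map_source hs, ?_⟩, fun y hy => ?_,
    e.eventually_left_inverse hs, fun y hy => ⟨hy.2.1, e.right_inv hy.1⟩⟩
  · rw [mem_preimage, ← he, e.left_inv hs]
    exact ⟨hx, A, hA⟩
  · obtain ⟨B, hB⟩ := hy.2.2
    exact (e.contDiffAt_symm hy.1 (f₀' := B) (hB ▸ hd _ hy.2.1) (ha _ hy.2.1)).contDiffWithinAt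

/-- cut-off of a local function -/
theorem cut_off {φ : E → ℝ} {O : Set E} (hO : IsOpen O) (h : ContDiffOn ℝ ∞ φ O) {x₀ : E}
    (hx : x₀ ∈ O) : ∃ Ω : E → ℝ, ContDiff ℝ ∞ Ω ∧ Ω =ᶠ[𝓝 x₀] φ ∧
      ∀ x, (x ∈ O → φ x = 0) → Ω x = 0 := by
  obtain ⟨χ, h0, h1, -⟩ := exists_contMDiffMap_zero_one_nhds_of_isClosed 𝓘(ℝ, E) (n := ⊤)
    hO.isClosed_compl (isClosed_singleton (x := x₀)) (by simpa using hx)
  refine ⟨fun x => χ x * φ x, contDiff_iff_contDiffAt.2 fun x => ?_, ?_, fun x hx => ?_⟩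
  · by_cases k : x ∈ O
    · exact χ.contMDiff.contDiff.contDiffAt.mul (h.contDiffAt (hO.mem_nhds k))
    · exact (contDiffAt_const (c := 0)).congr_of_eventuallyEq
        ((h0.filter_mono (nhds_le_nhdsSet k)).mono fun y hy => by simp [hy])
  · exact (h1.filter_mono (nhds_le_nhdsSet (mem_singleton x₀))).mono fun y hy => by simp [hy]
  · by_cases k : x ∈ O
    · simp [hx k]
    · simp [h0.self_of_nhdsSet x k]

end

variable {S V Z : Type} [NormedAddCommGroup S] [NormedSpace ℝ S] [FiniteDimensional ℝ S]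
  [NormedAddCommGroup V] [NormedSpace ℝ V] [FiniteDimensional ℝ V]
  [NormedAddCommGroup Z] [NormedSpace ℝ Z] [FiniteDimensional ℝ Z]
  {N K : Set V} {Λ : S × V → Z} {η : S × V → Z →L[ℝ] ℝ} {w : S × V → ℝ} {s₀ : S}

theorem jet_loc (hN : IsOpen N) (hΛ : ContDiffOn ℝ ∞ Λ (univ ×ˢ N))
    (hη : ContDiffOn ℝ ∞ η (univ ×ˢ N)) (hw : ContDiffOn ℝ ∞ w (univ ×ˢ N))
    (hd : ∀ s, ∀ l ∈ N, fderiv ℝ (fun l => w (s, l)) l =
      (η (s, l)).comp (fderiv ℝ (fun l => Λ (s, l)) l))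
    (h0 : ∀ l ∈ N, w (s₀, l) = 0 ∧ η (s₀, l) = 0) {l₀ : V} (hl : l₀ ∈ N)
    (hi : Injective (fderiv ℝ (fun l => Λ (s₀, l)) l₀)) :
    ∃ Ω : S × Z → ℝ, ContDiff ℝ ∞ Ω ∧ (∀ z, Ω (s₀, z) = 0) ∧ ∀ᶠ p in 𝓝 (s₀, l₀),
      Ω (p.1, Λ p) = w p ∧ HasFDerivAt (fun z => Ω (p.1, z)) (η p) (Λ p) := by
  have hU : IsOpen ((univ : Set S) ×ˢ N) := isOpen_univ.prod hN
  have df : ∀ {F : Type} [NormedAddCommGroup F] [NormedSpace ℝ F] {f : S × V → F},
      ContDiffOn ℝ ∞ f (univ ×ˢ N) → ∀ p : S × V, p.2 ∈ N → DifferentiableAt ℝ f p :=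
    fun hf p hp => (hf.contDiffAt (hU.mem_nhds ⟨trivial, hp⟩)).differentiableAt (by simp)
  obtain ⟨P₀, hP⟩ := LinearMap.exists_leftInverse_of_injective
    (fderiv ℝ (fun l => Λ (s₀, l)) l₀ : V →ₗ[ℝ] Z) (LinearMap.ker_eq_bot.2 hi)
  set P : Z →L[ℝ] V := LinearMap.toContinuousLinearMap P₀
  have d0 := (df hΛ (s₀, l₀) hl).hasFDerivAt
  obtain ⟨g, O, hO, hx, hg, hl', hr⟩ := loc_inv (f := fun p : S × V => (p.1, P (Λ p))) hU
    (contDiffOn_fst.prodMk (P.contDiff.comp_contDiffOn hΛ)) (x₀ := (s₀, l₀)) ⟨trivial, hl⟩ (by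
      have d1 : HasFDerivAt (fun p : S × V => (p.1, P (Λ p))) _ (s₀, l₀) :=
        hasFDerivAt_fst.prodMk (P.hasFDerivAt.comp _ d0)
      rw [d1.fderiv, injective_iff_map_eq_zero]
      rintro ⟨a, b⟩ h
      obtain ⟨rfl, h2⟩ : a = 0 ∧ P (fderiv ℝ Λ (s₀, l₀) (a, b)) = 0 := by simpa using h
      have := LinearMap.congr_fun hP b
      have d2 : HasFDerivAt (fun l => Λ (s₀, l)) _ l₀ := d0.comp l₀ (hasFDerivAt_prodMk_right s₀ l₀)
      rw [d2.fderiv] at this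
      exact Prod.ext rfl (this.symm.trans h2))
  set π : S × Z → S × V := fun q => g (q.1, P q.2) with hπ
  have cO : Continuous fun q : S × Z => (q.1, P q.2) := by fun_prop
  set O' := (fun q : S × Z => (q.1, P q.2)) ⁻¹' O
  have hO' : IsOpen O' := hO.preimage cO
  have sπ : ContDiffOn ℝ ∞ π O' := hg.comp (by fun_prop) fun _ h => h
  have mπ : MapsTo π O' (univ ×ˢ N) := fun q h => (hr _ h).1
  have fπ : ∀ q ∈ O', π q = (q.1, (π q).2) := fun q h => Prod.ext (congrArg Prod.fst (hr _ h).2 :) rfl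
  obtain ⟨Ω, sΩ, eΩ, zΩ⟩ := cut_off (φ := fun q => w (π q) + η (π q) (q.2 - Λ (π q))) hO'
    ((hw.comp sπ mπ).add ((hη.comp sπ mπ).clm_apply (contDiffOn_snd.sub (hΛ.comp sπ mπ))))
    (x₀ := (s₀, Λ (s₀, l₀))) hx
  refine ⟨Ω, sΩ, fun z => zΩ _ fun h => ?_, ?_⟩
  · have := h0 _ (mπ h).2
    rw [fπ _ h]
    simp [this]
  have ct : ContinuousAt (fun p : S × V => (p.1, Λ p)) (s₀, l₀) :=
    continuousAt_fst.prodMk d0.continuousAt
  filter_upwards [hl', ct.eventually eΩ.eventually_nhds, ct.eventually (hO'.mem_nhds hx),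
    hU.mem_nhds ⟨trivial, hl⟩] with ⟨s, l⟩ p1 p2 p3 p4
  have p5 : π (s, Λ (s, l)) = (s, l) := p1
  have c2 : ContinuousAt (fun z : Z => (s, z)) (Λ (s, l)) := by fun_prop
  refine ⟨by simpa [p5] using p2.self_of_nhds, ?_⟩
  have dQ : DifferentiableAt ℝ (fun z => (π (s, z)).2) (Λ (s, l)) :=
    (((sπ.contDiffAt (hO'.mem_nhds p3)).differentiableAt (by simp)).comp _ (by fun_prop)).snd
  have dl : ∀ {F : Type} [NormedAddCommGroup F] [NormedSpace ℝ F] {f : S × V → F},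
      ContDiffOn ℝ ∞ f (univ ×ˢ N) → HasFDerivAt (fun z => f (s, (π (s, z)).2))
        ((fderiv ℝ (fun l => f (s, l)) l).comp (fderiv ℝ (fun z => (π (s, z)).2) (Λ (s, l))))
        (Λ (s, l)) := fun {F} _ _ {f} hf => by
    refine HasFDerivAt.comp (g := fun l => f (s, l)) _ ?_ dQ.hasFDerivAt
    rw [p5]
    exact ((df hf (s, l) p4.2).comp l (by fun_prop)).hasFDerivAt
  have := (dl hw).add ((dl hη).clm_apply ((hasFDerivAt_id (Λ (s, l))).sub (dl hΛ)))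
  refine (this.congr_fderiv ?_).congr_of_eventuallyEq ?_
  · ext z
    simp [p5, hd s l p4.2]
  · filter_upwards [c2.eventually p2, c2.eventually (hO'.mem_nhds p3)] with z z1 z2
    rw [z1, fπ _ z2]
    rfl

/-- **jet extension** -/
theorem jet (hN : IsOpen N) (hK : IsCompact K) (hKN : K ⊆ N) (hΛ : ContDiffOn ℝ ∞ Λ (univ ×ˢ N))
    (hη : ContDiffOn ℝ ∞ η (univ ×ˢ N)) (hw : ContDiffOn ℝ ∞ w (univ ×ˢ N))
    (hd : ∀ s, ∀ l ∈ N, fderiv ℝ (fun l => w (s, l)) l =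
      (η (s, l)).comp (fderiv ℝ (fun l => Λ (s, l)) l))
    (h0 : ∀ l ∈ N, w (s₀, l) = 0 ∧ η (s₀, l) = 0) (hj : InjOn (fun l => Λ (s₀, l)) K)
    (hi : ∀ l ∈ K, Injective (fderiv ℝ (fun l => Λ (s₀, l)) l)) {ε : ℝ} (hε : 0 < ε) :
    ∀ᶠ s in 𝓝 s₀, ∃ W : Z → ℝ, ContDiff ℝ ∞ W ∧ HasCompactSupport W ∧
      (∀ z, ‖fderiv ℝ W z‖ ≤ ε ∧ ‖fderiv ℝ (fderiv ℝ W) z‖ ≤ ε) ∧
      ∀ l ∈ K, HasFDerivAt W (η (s, l)) (Λ (s, l)) := by
  have cΛ : ∀ l ∈ K, ContinuousAt Λ (s₀, l) := fun l h =>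
    hΛ.continuousOn.continuousAt ((isOpen_univ.prod hN).mem_nhds ⟨trivial, hKN h⟩)
  have c0 : ContinuousOn (fun l => Λ (s₀, l)) K := fun l h =>
    ((cΛ l h).comp (by fun_prop)).continuousWithinAt
  have hC := hK.image_of_continuousOn c0
  obtain ⟨Ω, sΩ, zΩ, O, hO, hCO, hJ⟩ := hC.induction_on (p := fun A => ∃ Ω : S × Z → ℝ,
      ContDiff ℝ ∞ Ω ∧ (∀ z, Ω (s₀, z) = 0) ∧ ∃ O, IsOpen O ∧ closure A ⊆ O ∧ ∀ᶠ s in 𝓝 s₀,
        ∀ l ∈ K, Λ (s, l) ∈ O → Ω (s, Λ (s, l)) = w (s, l) ∧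
          HasFDerivAt (fun z => Ω (s, z)) (η (s, l)) (Λ (s, l)))
    ⟨0, contDiff_const, fun _ => rfl, ∅, isOpen_empty, by simp, by simp⟩
    (fun A B h ⟨Ω, a, b, O, c, d, e⟩ => ⟨Ω, a, b, O, c, (closure_mono h).trans d, e⟩)
    (by
      rintro A B ⟨Ω, a, b, O, c, d, e⟩ ⟨Ω', a', b', O', c', d', e'⟩
      obtain ⟨χ, h0, h1, -⟩ := exists_contMDiffMap_zero_one_nhds_of_isClosed 𝓘(ℝ, Z) (n := ⊤)
        c.isClosed_compl (isClosed_closure (s := A)) (disjoint_compl_left_iff_subset.2 d)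
      have sχ : ContDiff ℝ ∞ χ := χ.contMDiff.contDiff
      refine ⟨fun q => χ q.2 * Ω q + (1 - χ q.2) * Ω' q, by fun_prop, fun z => by simp [b, b'],
        (O ∩ {z | ∀ᶠ y in 𝓝 z, χ y = 1}) ∪ O', (c.inter isOpen_setOfPred_eventually_nhds).union c', ?_,
        (e.and e').mono fun s hs l hl hz => ?_⟩
      · rw [closure_union]
        exact union_subset_union (fun z hz => ⟨d hz, h1.filter_mono (nhds_le_nhdsSet hz)⟩) d'
      rcases hz with hz | hz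
      · obtain ⟨u, v⟩ := hs.1 l hl hz.1
        exact ⟨by simp [hz.2.self_of_nhds, u], v.congr_of_eventuallyEq
          (hz.2.mono fun y hy => by simp [hy])⟩
      obtain ⟨u', v'⟩ := hs.2 l hl hz
      by_cases k : Λ (s, l) ∈ O
      · obtain ⟨u, v⟩ := hs.1 l hl k
        have dχ := (sχ.differentiable (by simp) (Λ (s, l))).hasFDerivAt
        refine ⟨by simp only [u, u']; ring,
          ((dχ.mul v).add ((dχ.const_sub 1).mul v')).congr_fderiv ?_⟩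
        ext z
        simp [u, u']
        ring
      · have := h0.filter_mono (nhds_le_nhdsSet k)
        exact ⟨by simp [this.self_of_nhds, u'], v'.congr_of_eventuallyEq
          (this.mono fun y hy => by simp [hy])⟩)
    (by
      rintro _ ⟨l₀, hl, rfl⟩
      obtain ⟨Ω, a, b, c⟩ := jet_loc hN hΛ hη hw hd h0 (hKN hl) (hi l₀ hl)
      obtain ⟨B, hB, B', hB', hc⟩ := mem_nhds_prod_iff.1 c
      have hC' := (hK.diff (isOpen_interior (s := B'))).image_of_continuousOn (c0.mono sdiff_subset)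
      obtain ⟨δ, hδ, hb⟩ := nhds_basis_closedBall.mem_iff.1 (hC'.isClosed.isOpen_compl.mem_nhds
        (x := Λ (s₀, l₀)) fun ⟨l, h1, h2⟩ => h1.2 (hj h1.1 hl h2 ▸ mem_interior_iff_mem_nhds.2 hB'))
      refine ⟨ball (Λ (s₀, l₀)) (δ / 2), mem_nhdsWithin_of_mem_nhds (ball_mem_nhds _ (half_pos hδ)),
        Ω, a, b, ball (Λ (s₀, l₀)) δ, isOpen_ball,
        closure_ball_subset_closedBall.trans (closedBall_subset_ball (half_lt_self hδ)),
        hK.eventually_forall_of_forall_eventually fun l hl' => ?_⟩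
      by_cases k : l ∈ interior B'
      · filter_upwards [prod_mem_nhds hB (mem_interior_iff_mem_nhds.1 k)] with p hp _ using hc hp
      · filter_upwards [(cΛ l hl').eventually (isClosed_closedBall.isOpen_compl.mem_nhds
          fun h => hb h ⟨l, ⟨hl', k⟩, rfl⟩)] with p hp h using (hp (ball_subset_closedBall h)).elim)
  obtain ⟨R, hR, hb⟩ := hC.isBounded.subset_ball_lt 0 0
  set χ : ContDiffBump (0 : Z) := ⟨R, R + 1, hR, by linarith⟩
  have sχ : ContDiff ℝ ∞ χ := χ.contDiff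
  set W : S → Z → ℝ := fun s z => χ z * Ω (s, z) with hW
  have s1 : ContDiff ℝ ∞ fun q : S × Z => fderiv ℝ (W q.1) q.2 :=
    ContDiff.fderiv (m := ∞) (f := fun q : S × Z => W q.1) (by simp only [hW]; fun_prop)
      contDiff_snd (by simp)
  have s2 : ContDiff ℝ ∞ fun q : S × Z => fderiv ℝ (fderiv ℝ (W q.1)) q.2 :=
    ContDiff.fderiv (m := ∞) (f := fun q : S × Z => fderiv ℝ (W q.1))
      (s1.comp (f := fun x : (S × Z) × Z => (x.1.1, x.2)) (by fun_prop)) contDiff_snd (by simp)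
  have n0 : ‖(0 : Z →L[ℝ] Z →L[ℝ] ℝ)‖ = 0 := ContinuousLinearMap.opNorm_zero
  have W0 : W s₀ = fun _ => 0 := funext fun z => by simp [hW, zΩ]
  have sm := χ.hasCompactSupport.isCompact.eventually_forall_of_forall_eventually (x₀ := s₀)
    (P := fun s z => ‖fderiv ℝ (W s) z‖ ≤ ε ∧ ‖fderiv ℝ (fderiv ℝ (W s)) z‖ ≤ ε) fun z _ =>
      by
      have c1 : Continuous fun q : S × Z => ‖fderiv ℝ (W q.1) q.2‖ := s1.continuous.norm
      have c2 : Continuous fun q : S × Z => ‖fderiv ℝ (fderiv ℝ (W q.1)) q.2‖ :=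
        (continuous_norm (E := Z →L[ℝ] Z →L[ℝ] ℝ)).comp s2.continuous
      exact (((c1.tendsto (s₀, z)).eventually (gt_mem_nhds (a := ε) (by simpa [W0] using hε))).and
        ((c2.tendsto (s₀, z)).eventually
          (gt_mem_nhds (a := ε) (by simpa [W0, n0] using hε)))).mono fun _ h => ⟨h.1.le, h.2.le⟩
  have nr := hK.eventually_forall_of_forall_eventually (x₀ := s₀)
    (P := fun s l => Λ (s, l) ∈ O ∩ ball 0 R) fun l hl => (cΛ l hl).eventually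
      ((hO.inter isOpen_ball).mem_nhds ⟨hCO (subset_closure ⟨l, hl, rfl⟩), hb ⟨l, hl, rfl⟩⟩)
  filter_upwards [hJ, sm, nr] with s h1 h2 h3
  refine ⟨W s, by simp only [hW]; fun_prop, χ.hasCompactSupport.mul_right, fun z => ?_,
    fun l hl => (h1 l hl (h3 l hl).1).2.congr_of_eventuallyEq ?_⟩
  · by_cases k : z ∈ tsupport χ
    · exact h2 z k
    · have e : W s =ᶠ[𝓝 z] fun _ => 0 :=
        (notMem_tsupport_iff_eventuallyEq.1 k).mono fun y hy => by simp [hW, hy]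
      simp [e.fderiv_eq, e.fderiv.fderiv_eq, hε.le, n0]
  · filter_upwards [χ.eventuallyEq_one_of_mem_ball (h3 l hl).2] with y hy
    simp [hW, hy]

end Crest.Agent.N218.C
end

-- ▼ part N218/C/Stp

/-! Row 218, block (C): nearby members of an isotopy are related by a small function. -/

set_option autoImplicit false
open scoped ContDiff Topology
open Set Filter ContinuousLinearMap

namespace Crest.Agent.N218.C

theorem stp_gen {A P : Type} [NormedAddCommGroup A] [NormedSpace ℝ A] [FiniteDimensional ℝ A]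
    [NormedAddCommGroup P] [NormedSpace ℝ P] [FiniteDimensional ℝ P] (β : P →L[ℝ] A →L[ℝ] ℝ)
    {N K : Set A} (hN : IsOpen N) (hK : IsCompact K) (hKN : K ⊆ N) {a : ℝ × A → A}
    {p : ℝ × A → P} {h : ℝ × A → ℝ} (sa : ContDiffOn ℝ ∞ a (univ ×ˢ N))
    (sp : ContDiffOn ℝ ∞ p (univ ×ˢ N)) (sh : ContDiffOn ℝ ∞ h (univ ×ˢ N)) (s₀ : ℝ)
    (inj : InjOn (fun l => (a (s₀, l), p (s₀, l))) N)
    (imm : ∀ l ∈ N, ∀ v, fderiv ℝ (fun l => a (s₀, l)) l v = 0 →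
      fderiv ℝ (fun l => p (s₀, l)) l v = 0 → v = 0)
    (ex : ∀ s, ∀ l ∈ N, ∀ v,
      fderiv ℝ (fun l => h (s, l)) l v = β (p (s, l)) (fderiv ℝ (fun l => a (s, l)) l v)) :
    ∀ᶠ σ : ℝ × ℝ in 𝓝 (s₀, s₀), ∃ W : A × P → ℝ, ContDiff ℝ ∞ W ∧ HasCompactSupport W ∧
      (∀ z a, ‖fderiv ℝ W z a‖ ≤ 1 / 8 * ‖a‖) ∧
      (∀ z a b, ‖fderiv ℝ (fderiv ℝ W) z a b‖ ≤ 1 / 2 * ‖a‖ * ‖b‖) ∧
      ∀ l ∈ K, ∀ w π, fderiv ℝ W (a (σ.2, l), p (σ.1, l)) (w, π) =
        β (p (σ.2, l) - p (σ.1, l)) w + β π (a (σ.1, l) - a (σ.2, l)) := by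
  have m1 : ContDiffOn ℝ ∞ (fun x : (ℝ × ℝ) × A => (x.1.1, x.2)) (univ ×ˢ N) := by fun_prop
  have m2 : ContDiffOn ℝ ∞ (fun x : (ℝ × ℝ) × A => (x.1.2, x.2)) (univ ×ˢ N) := by fun_prop
  have t1 : MapsTo (fun x : (ℝ × ℝ) × A => (x.1.1, x.2)) (univ ×ˢ N) (univ ×ˢ N) :=
    fun x hx => ⟨trivial, hx.2⟩
  have t2 : MapsTo (fun x : (ℝ × ℝ) × A => (x.1.2, x.2)) (univ ×ˢ N) (univ ×ˢ N) :=
    fun x hx => ⟨trivial, hx.2⟩
  have a1 := sa.comp m1 t1
  have a2 := sa.comp m2 t2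
  have p1 := sp.comp m1 t1
  have p2 := sp.comp m2 t2
  have df : ∀ {B : Type} [NormedAddCommGroup B] [NormedSpace ℝ B] {f : ℝ × A → B},
      ContDiffOn ℝ ∞ f (univ ×ˢ N) → ∀ s, ∀ l ∈ N,
      HasFDerivAt (fun l => f (s, l)) (fderiv ℝ (fun l => f (s, l)) l) l := fun hf s l hl =>
    (((hf.contDiffAt ((isOpen_univ.prod hN).mem_nhds ⟨trivial, hl⟩)).comp l
      (contDiffAt_const.prodMk contDiffAt_id)).differentiableAt (by simp)).hasFDerivAt
  have k := jet (S := ℝ × ℝ) (s₀ := (s₀, s₀)) (Λ := fun x => (a (x.1.2, x.2), p (x.1.1, x.2)))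
    (η := fun x => (β (p (x.1.2, x.2) - p (x.1.1, x.2))).comp (fst ℝ A P) +
      (β.flip (a (x.1.1, x.2) - a (x.1.2, x.2))).comp (snd ℝ A P))
    (w := fun x => h (x.1.2, x.2) - h (x.1.1, x.2) +
      β (p (x.1.1, x.2)) (a (x.1.1, x.2) - a (x.1.2, x.2))) hN hK hKN (a2.prodMk p1)
    (((β.contDiff.comp_contDiffOn (p2.sub p1)).clm_comp contDiffOn_const).add
      ((β.flip.contDiff.comp_contDiffOn (a1.sub a2)).clm_comp contDiffOn_const))
    (((sh.comp m2 t2).sub (sh.comp m1 t1)).add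
      ((β.contDiff.comp_contDiffOn p1).clm_apply (a1.sub a2)))
    (fun s l hl => by
      have e1 := (((df sh s.2 l hl).sub (df sh s.1 l hl)).add
        ((β.hasFDerivAt.comp l (df sp s.1 l hl)).clm_apply
          ((df sa s.1 l hl).sub (df sa s.2 l hl)))).fderiv
      have e2 := ((df sa s.2 l hl).prodMk (df sp s.1 l hl)).fderiv
      refine e1.trans ?_
      rw [e2]
      ext v
      simp [ex _ l hl]
      ring)
    (fun l _ => by simp) (inj.mono hKN)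
    (fun l hl => by
      have e2 := ((df sa s₀ l (hKN hl)).prodMk (df sp s₀ l (hKN hl))).fderiv
      refine (injective_iff_map_eq_zero _).2 fun v hv => ?_
      rw [e2] at hv
      exact imm l (hKN hl) v (congrArg Prod.fst hv) (congrArg Prod.snd hv))
    (show (0 : ℝ) < 1 / 8 by norm_num)
  filter_upwards [k] with σ ⟨W, w1, w2, w3, w4⟩
  refine ⟨W, w1, w2, d1_le fun z => (w3 z).1, d2_le fun z => (w3 z).2.trans (by norm_num),
    fun l hl w π => ?_⟩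
  rw [(w4 l hl).fderiv]
  simp

theorem near : STP := by
  intro Ls a p h c s₀
  have hN : IsOpen Nz := (isOpen_ne_fun continuous_fst continuous_const).inter
    (isOpen_ne_fun continuous_snd continuous_const)
  let K : Set V := {q | (1 / 2 ≤ ‖q.1‖ ∧ ‖q.1‖ ≤ 2) ∧ (1 / 2 ≤ ‖q.2‖ ∧ ‖q.2‖ ≤ 2)}
  have hK : IsCompact K := by
    refine (isCompact_closedBall (0 : V) 2).of_isClosed_subset ?_ fun q hq => ?_
    · exact ((isClosed_le continuous_const continuous_fst.norm).inter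
        (isClosed_le continuous_fst.norm continuous_const)).inter
        ((isClosed_le continuous_const continuous_snd.norm).inter
        (isClosed_le continuous_snd.norm continuous_const))
    · rw [mem_closedBall_zero_iff, Prod.norm_def]; exact max_le hq.1.2 hq.2.2
  have hKN : K ⊆ Nz := fun q hq => ⟨norm_pos_iff.1 (by linarith [hq.1.1]),
    norm_pos_iff.1 (by linarith [hq.2.1])⟩
  have hU : ∀ s, ∀ l ∈ Nz, a (s, l) ∈ Us → l ∈ K := fun s l hl u => by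
    obtain ⟨e1, e2⟩ := c.nr s l hl
    obtain ⟨⟨u1, u2⟩, u3, u4⟩ := u
    exact ⟨⟨by linarith, by linarith⟩, by linarith, by linarith⟩
  filter_upwards [stp_gen (ContinuousLinearMap.id ℝ Vd) hN hK hKN c.sa c.sp c.sh s₀ (c.inj s₀)
    (c.imm s₀) c.ex] with σ ⟨W, w1, w2, w3, w4, w5⟩
  refine ⟨W, w1, w2, w3, w4, fun z hz u => ?_, fun z hz u => ?_⟩
  · rw [c.im] at hz
    obtain ⟨l, hl, rfl⟩ := hz
    exact ⟨(a (σ.2, l), p (σ.2, l)), by rw [c.im]; exact ⟨l, hl, rfl⟩, w5 l (hU _ l hl u)⟩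
  · rw [c.im] at hz
    obtain ⟨l, hl, rfl⟩ := hz
    exact ⟨(a (σ.1, l), p (σ.1, l)), by rw [c.im]; exact ⟨l, hl, rfl⟩, w5 l (hU _ l hl u)⟩

end Crest.Agent.N218.C
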