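import Crest.Agent.N218.C.Defs
import Crest.Agent.N218.C.Nn
import Crest.Agent.N218.C.Df2
import Crest.Agent.N218.C.Diag

-- ▼ part N218/C/Lp
section

/-! Row 218, block (C) (helper69): closure properties of `Lp` and `Bd`. -/

set_option autoImplicit false
open scoped ContDiff NNReal
open Set

noncomputable section

namespace Crest.Agent.N218.C

variable {A B C : Type*} [NormedAddCommGroup A] [NormedSpace ℝ A] [NormedAddCommGroup B]
  [NormedSpace ℝ B] [NormedAddCommGroup C] [NormedSpace ℝ C]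

theorem Lp.mk' {f : A → B} (hf : ContDiff ℝ ∞ f) {a b : ℝ≥0} (h1 : LipschitzWith a f)
    (h2 : LipschitzWith b (fderiv ℝ f)) : Lp f :=
  ⟨hf, max a b, h1.weaken (le_max_left _ _), h2.weaken (le_max_right _ _)⟩

theorem Lp.smooth {f : A → B} (hf : Lp f) : ContDiff ℝ ∞ f := hf.1

theorem Lp.diff {f : A → B} (hf : Lp f) : Differentiable ℝ f := hf.1.differentiable (by simp)

/-- real-constant form -/
theorem Lp.bound {f : A → B} (hf : Lp f) : ∃ c : ℝ, 0 ≤ c ∧ (∀ x y, ‖f x - f y‖ ≤ c * ‖x - y‖) ∧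
    (∀ x, ‖fderiv ℝ f x‖ ≤ c) ∧ ∀ x y, ‖fderiv ℝ f x - fderiv ℝ f y‖ ≤ c * ‖x - y‖ := by
  obtain ⟨-, c, h1, h2⟩ := hf
  exact ⟨c, c.2, fun x y => h1.norm_sub_le x y, fun x => norm_fderiv_le_of_lipschitz ℝ h1,
    fun x y => h2.norm_sub_le x y⟩

theorem Lp.of_real {f : A → B} (hf : ContDiff ℝ ∞ f) {a b : ℝ} (h1 : ∀ x, ‖fderiv ℝ f x‖ ≤ a)
    (h2 : ∀ x y, ‖fderiv ℝ f x - fderiv ℝ f y‖ ≤ b * ‖x - y‖) : Lp f := by
  refine Lp.mk' hf (a := a.toNNReal) (b := b.toNNReal)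
    (lipschitzWith_of_nnnorm_fderiv_le (hf.differentiable (by simp)) fun x => ?_)
    (LipschitzWith.of_dist_le' fun x y => ?_)
  · exact NNReal.coe_le_coe.1 ((h1 x).trans (Real.le_coe_toNNReal a))
  · rw [dist_eq_norm, dist_eq_norm]; exact h2 x y


theorem Lp.clm (L : A →L[ℝ] B) : Lp L :=
  Lp.of_real L.contDiff (a := ‖L‖) (b := 0) (fun x => by simp) fun x y => by simp

theorem Lp.const (b : B) : Lp fun _ : A => b :=
  Lp.of_real contDiff_const (a := 0) (b := 0) (fun x => by simp) fun x y => by simp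

theorem Lp.id : Lp fun a : A => a := Lp.clm (ContinuousLinearMap.id ℝ A)

theorem Lp.comp {g : B → C} {f : A → B} (hg : Lp g) (hf : Lp f) : Lp fun x => g (f x) := by
  obtain ⟨c, c0, -, g1, g2⟩ := hg.bound
  obtain ⟨d, d0, f0, f1, f2⟩ := hf.bound
  have e : ∀ x, fderiv ℝ (fun x => g (f x)) x = (fderiv ℝ g (f x)).comp (fderiv ℝ f x) := fun x =>
    fderiv_comp x (hg.diff _) (hf.diff _)
  refine Lp.of_real (hg.1.comp hf.1) (a := c * d) (b := c * d * d + c * d) (fun x => ?_)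
    fun x y => ?_
  · rw [e]
    exact (ContinuousLinearMap.opNorm_comp_le _ _).trans
      (mul_le_mul (g1 _) (f1 _) (norm_nonneg _) c0)
  · rw [e, e]
    have e2 : (fderiv ℝ g (f x)).comp (fderiv ℝ f x) - (fderiv ℝ g (f y)).comp (fderiv ℝ f y) =
        (fderiv ℝ g (f x) - fderiv ℝ g (f y)).comp (fderiv ℝ f x) +
          (fderiv ℝ g (f y)).comp (fderiv ℝ f x - fderiv ℝ f y) := by
      ext v; simp
    rw [e2]
    have k1 : ‖fderiv ℝ g (f x) - fderiv ℝ g (f y)‖ ≤ c * (d * ‖x - y‖) :=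
      (g2 _ _).trans (mul_le_mul_of_nonneg_left (f0 _ _) c0)
    have k2 := (ContinuousLinearMap.opNorm_comp_le (fderiv ℝ g (f x) - fderiv ℝ g (f y))
      (fderiv ℝ f x)).trans (mul_le_mul k1 (f1 x) (norm_nonneg _) (by positivity))
    have k3 := (ContinuousLinearMap.opNorm_comp_le (fderiv ℝ g (f y))
      (fderiv ℝ f x - fderiv ℝ f y)).trans (mul_le_mul (g1 _) (f2 x y) (norm_nonneg _) c0)
    refine (norm_add_le _ _).trans ?_
    nlinarith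

theorem Lp.congr {f g : A → B} (hf : Lp f) (h : ∀ x, g x = f x) : Lp g := funext h ▸ hf

theorem Lp.fst {f : A → B × C} (hf : Lp f) : Lp fun x => (f x).1 :=
  (Lp.clm (ContinuousLinearMap.fst ℝ B C)).comp hf

theorem Lp.snd {f : A → B × C} (hf : Lp f) : Lp fun x => (f x).2 :=
  (Lp.clm (ContinuousLinearMap.snd ℝ B C)).comp hf

theorem Lp.fst' : Lp fun x : A × B => x.1 := Lp.id.fst

theorem Lp.snd' : Lp fun x : A × B => x.2 := Lp.id.snd

theorem Lp.add {f g : A → B} (hf : Lp f) (hg : Lp g) : Lp fun x => f x + g x := by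
  obtain ⟨c, c0, -, g1, g2⟩ := hg.bound
  obtain ⟨d, d0, -, f1, f2⟩ := hf.bound
  have e : ∀ x, fderiv ℝ (fun x => f x + g x) x = fderiv ℝ f x + fderiv ℝ g x := fun x =>
    fderiv_fun_add (hf.diff _) (hg.diff _)
  refine Lp.of_real (hf.1.add hg.1) (a := d + c) (b := d + c) (fun x => ?_) fun x y => ?_
  · rw [e]; exact (norm_add_le _ _).trans (add_le_add (f1 x) (g1 x))
  · rw [e, e, add_sub_add_comm, add_mul]
    exact (norm_add_le _ _).trans (add_le_add (f2 x y) (g2 x y))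

theorem Lp.neg {f : A → B} (hf : Lp f) : Lp fun x => -f x :=
  (Lp.clm (-ContinuousLinearMap.id ℝ B)).comp hf

theorem Lp.sub {f g : A → B} (hf : Lp f) (hg : Lp g) : Lp fun x => f x - g x :=
  (hf.add hg.neg).congr fun _ => sub_eq_add_neg _ _

theorem Lp.smul (c : ℝ) {f : A → B} (hf : Lp f) : Lp fun x => c • f x :=
  (Lp.clm (c • ContinuousLinearMap.id ℝ B)).comp hf

theorem Lp.prodMk {f : A → B} {g : A → C} (hf : Lp f) (hg : Lp g) : Lp fun x => (f x, g x) :=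
  (((Lp.clm (ContinuousLinearMap.inl ℝ B C)).comp hf).add
    ((Lp.clm (ContinuousLinearMap.inr ℝ B C)).comp hg)).congr fun _ => by simp

theorem Bd.lp {f : A → B} (hf : Bd f) : Lp f := hf.1

theorem Bd.smooth {f : A → B} (hf : Bd f) : ContDiff ℝ ∞ f := hf.1.1

theorem Bd.congr {f g : A → B} (hf : Bd f) (h : ∀ x, g x = f x) : Bd g := funext h ▸ hf

theorem Bd.const (b : B) : Bd fun _ : A => b := ⟨Lp.const b, ‖b‖, fun _ => le_rfl⟩

/-- bounded after `Lp` -/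
theorem Bd.comp {g : B → C} {f : A → B} (hg : Bd g) (hf : Lp f) : Bd fun x => g (f x) :=
  ⟨hg.1.comp hf, hg.2.imp fun _ h _ => h _⟩

/-- `Lp` after bounded -/
theorem Lp.comp_bd {g : B → C} {f : A → B} (hg : Lp g) (hf : Bd f) : Bd fun x => g (f x) := by
  obtain ⟨c, c0, g0, -⟩ := hg.bound
  obtain ⟨d, hd⟩ := hf.2
  refine ⟨hg.comp hf.1, c * d + ‖g 0‖, fun x => ?_⟩
  have h1 := g0 (f x) 0
  rw [sub_zero] at h1
  have h2 := norm_le_norm_sub_add (g (f x)) (g 0)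
  nlinarith [mul_le_mul_of_nonneg_left (hd x) c0]

theorem Bd.fst {f : A → B × C} (hf : Bd f) : Bd fun x => (f x).1 := Lp.fst'.comp_bd hf

theorem Bd.snd {f : A → B × C} (hf : Bd f) : Bd fun x => (f x).2 := Lp.snd'.comp_bd hf

theorem Bd.prodMk {f : A → B} {g : A → C} (hf : Bd f) (hg : Bd g) : Bd fun x => (f x, g x) := by
  obtain ⟨c, hc⟩ := hf.2
  obtain ⟨d, hd⟩ := hg.2
  exact ⟨hf.1.prodMk hg.1, max c d, fun x => by
    rw [Prod.norm_def]; exact max_le_max (hc x) (hd x)⟩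

theorem Bd.add {f g : A → B} (hf : Bd f) (hg : Bd g) : Bd fun x => f x + g x :=
  (Lp.fst'.add Lp.snd').comp_bd (hf.prodMk hg)

theorem Bd.sub {f g : A → B} (hf : Bd f) (hg : Bd g) : Bd fun x => f x - g x :=
  (Lp.fst'.sub Lp.snd').comp_bd (hf.prodMk hg)

theorem Bd.neg {f : A → B} (hf : Bd f) : Bd fun x => -f x := Lp.id.neg.comp_bd hf

theorem Bd.smul (c : ℝ) {f : A → B} (hf : Bd f) : Bd fun x => c • f x := (Lp.id.smul c).comp_bd hf

theorem Bd.of_compact {f : A → B} (hf : ContDiff ℝ ∞ f) (hc : HasCompactSupport f) : Bd f := by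
  have hD : ContDiff ℝ ∞ (fderiv ℝ f) := hf.fderiv_right (m := ∞) (by simp)
  obtain ⟨a, ha⟩ := hf.lipschitzWith_of_hasCompactSupport hc (by simp)
  obtain ⟨b, hb⟩ := hD.lipschitzWith_of_hasCompactSupport (hc.fderiv ℝ) (by simp)
  exact ⟨Lp.mk' hf ha hb, hc.exists_bound_of_continuous hf.continuous⟩

/-- a bump that equals `1` on a given ball -/
theorem exists_bump (B : Type*) [NormedAddCommGroup B] [NormedSpace ℝ B] [FiniteDimensional ℝ B]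
    (d : ℝ) : ∃ χ : B → ℝ, ContDiff ℝ ∞ χ ∧ HasCompactSupport χ ∧ ∀ b, ‖b‖ ≤ d → χ b = 1 := by
  let χ : ContDiffBump (0 : B) := ⟨|d| + 1, |d| + 2, by positivity, by linarith⟩
  exact ⟨χ, χ.contDiff, χ.hasCompactSupport, fun b hb => χ.one_of_mem_closedBall
    (mem_closedBall_zero_iff.2 (by show ‖b‖ ≤ |d| + 1; linarith [le_abs_self d]))⟩

/-- any smooth function of a bounded map with finite-dimensional values -/
theorem Bd.smooth_comp [FiniteDimensional ℝ B] {g : B → C} {f : A → B} (hg : ContDiff ℝ ∞ g)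
    (hf : Bd f) : Bd fun x => g (f x) := by
  obtain ⟨d, hd⟩ := hf.2
  obtain ⟨χ, h1, h2, h3⟩ := exists_bump B d
  exact ((Bd.of_compact (f := fun b => χ b • g b) (h1.smul hg) h2.smul_right).comp hf.1).congr
    fun x => by simp [h3 _ (hd x)]

theorem Bd.mul {f g : A → ℝ} (hf : Bd f) (hg : Bd g) : Bd fun x => f x * g x :=
  Bd.smooth_comp (g := fun p : ℝ × ℝ => p.1 * p.2) (contDiff_fst.mul contDiff_snd) (hf.prodMk hg)


/-- `G (b x, k x)` for `b` bounded, `k` only `Lp`, `G` vanishing for a large second argument -/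
theorem Bd.cut {D : Type*} [NormedAddCommGroup D] [NormedSpace ℝ D] [FiniteDimensional ℝ B]
    [FiniteDimensional ℝ C] {G : B × C → D} (hG : ContDiff ℝ ∞ G) {R : ℝ}
    (h0 : ∀ q y, R ≤ ‖y‖ → G (q, y) = 0) {b : A → B} {k : A → C} (hb : Bd b) (hk : Lp k) :
    Bd fun x => G (b x, k x) := by
  have : ProperSpace B := FiniteDimensional.proper ℝ B
  have : ProperSpace C := FiniteDimensional.proper ℝ C
  obtain ⟨d, hd⟩ := hb.2
  obtain ⟨χ, h1, h2, h3⟩ := exists_bump B d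
  have hc : HasCompactSupport fun p : B × C => χ p.1 • G p := by
    refine HasCompactSupport.intro (h2.isCompact.prod (isCompact_closedBall (0 : C) R))
      fun p hp => ?_
    by_cases h : p.1 ∈ tsupport χ
    · have : R ≤ ‖p.2‖ := le_of_not_ge fun h' => hp ⟨h, mem_closedBall_zero_iff.2 h'⟩
      rw [show G p = 0 from h0 p.1 p.2 this, smul_zero]
    · rw [image_eq_zero_of_notMem_tsupport h, zero_smul]
  exact ((Bd.of_compact ((h1.comp contDiff_fst).smul hG) hc).comp (hb.1.prodMk hk)).congr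
    fun x => by simp [h3 _ (hd x)]


end Crest.Agent.N218.C
end
end

-- ▼ part N218/C/Toe

/-! Row 218, block (C) (helper32): the end of the chain. -/

set_option autoImplicit false
open scoped Manifold ContDiff InnerProductSpace Topology
open Set Crest.GeometryTopology.CotangentSpheres ContinuousLinearMap

noncomputable section

namespace Crest.Agent.N218.C

namespace Toe

section grad
variable {A F : Type} [NormedAddCommGroup A] [NormedSpace ℝ A] [NormedAddCommGroup F]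
  [InnerProductSpace ℝ F] [CompleteSpace F]

theorem norm_rv0 (P : A × F →L[ℝ] ℝ) :
    ‖(InnerProductSpace.toDual ℝ F).symm (P.comp (inr ℝ A F))‖ ≤ 1 * ‖P‖ := by
  rw [LinearIsometryEquiv.norm_map, one_mul]
  exact opNorm_le_bound _ (opNorm_nonneg _) fun v => by simpa using P.le_opNorm (0, v)

variable (A F) in
/-- restriction to the fibre, as a vector -/
def rv : (A × F →L[ℝ] ℝ) →L[ℝ] F :=
  LinearMap.mkContinuous
    { toFun := fun P : A × F →L[ℝ] ℝ => (InnerProductSpace.toDual ℝ F).symm (P.comp (inr ℝ A F))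
      map_add' := fun P Q => by simp
      map_smul' := fun a P => by simp } 1 norm_rv0

theorem inner_rv (P : A × F →L[ℝ] ℝ) (v : F) : ⟪rv A F P, v⟫_ℝ = P (0, v) :=
  InnerProductSpace.toDual_symm_apply

theorem norm_rv (P : A × F →L[ℝ] ℝ) : ‖rv A F P‖ ≤ ‖P‖ := (norm_rv0 P).trans_eq (one_mul _)

/-- the fibre gradient -/
def fg (γ : A × F → ℝ) (x : A × F) : F := rv A F (fderiv ℝ γ x)

theorem fg_smooth {γ : A × F → ℝ} (h : ContDiff ℝ ∞ γ) : ContDiff ℝ ∞ (fg γ) :=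
  ContDiff.comp (g := rv A F) (ContinuousLinearMap.contDiff _) (h.fderiv_right (m := ∞) le_rfl)

theorem fg_grad {γ : A × F → ℝ} (h : ContDiff ℝ ∞ γ) (x : A) (p : F) :
    HasGradientAt (fun p => γ (x, p)) (fg γ (x, p)) p := by
  rw [hasGradientAt_iff_hasFDerivAt]
  exact ((h.differentiable (by simp) (x, p)).hasFDerivAt.comp p
    (hasFDerivAt_prodMk_right x p)).congr_fderiv
      (ContinuousLinearMap.ext fun v => (inner_rv _ v).symm)

theorem fg_bd {γ : A × F → ℝ} (h : Lp γ) : ∃ c : ℝ, 0 ≤ c ∧ (∀ x, ‖fg γ x‖ ≤ c) ∧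
    ∀ x p p', ‖fg γ (x, p) - fg γ (x, p')‖ ≤ c * ‖p - p'‖ := by
  obtain ⟨c, c0, -, h1, h2⟩ := h.bound
  refine ⟨c, c0, fun x => (norm_rv _).trans (h1 x), fun x p p' => ?_⟩
  rw [fg, fg, ← map_sub]
  simpa using (norm_rv _).trans (h2 (x, p) (x, p'))

variable {W E : Type} [NormedAddCommGroup W] [NormedSpace ℝ W] [NormedAddCommGroup E]
  [NormedSpace ℝ E] {G : W × E → ℝ} {γ : A × F → ℝ} {g : F → ℝ} {L : F →L[ℝ] F} {e : F ≃L[ℝ] E}
  {q : W} {x : A}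

omit [CompleteSpace F] in
theorem dE (e : F ≃L[ℝ] E) (q : W) (p : F) :
    HasFDerivAt (fun p => (q, e p)) ((0 : F →L[ℝ] W).prod (e : F →L[ℝ] E)) p :=
  (hasFDerivAt_const _ _).prodMk e.hasFDerivAt

theorem k1 (hG : ContDiff ℝ ∞ G) (hγ : ContDiff ℝ ∞ γ) (hg : ∀ p, HasGradientAt g (L p) p)
    (h : ∀ p, G (q, e p) = g p + γ (x, p)) (p v : F) :
    fderiv ℝ G (q, e p) (0, e v) = ⟪L p + fg γ (x, p), v⟫_ℝ := by
  have a := (hG.differentiable (by simp) _).hasFDerivAt.comp p (dE e q p)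
  have c := ((hg p).hasFDerivAt.add (fg_grad hγ x p).hasFDerivAt).congr_of_eventuallyEq
    (Filter.Eventually.of_forall h)
  simpa [inner_add_left] using ContinuousLinearMap.ext_iff.1 (a.unique c) v

theorem cr_iff (hG : ContDiff ℝ ∞ G) (hγ : ContDiff ℝ ∞ γ) (hg : ∀ p, HasGradientAt g (L p) p)
    (h : ∀ p, G (q, e p) = g p + γ (x, p)) (p : F) : Cr G (q, e p) ↔ L p + fg γ (x, p) = 0 :=
  ⟨fun k => inner_self_eq_zero.1 ((k1 hG hγ hg h p _).symm.trans (k _)), fun k ζ => by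
    rw [← e.apply_symm_apply ζ, k1 hG hγ hg h, k, inner_zero_left]⟩

theorem k2 (hG : ContDiff ℝ ∞ G) (hγ : ContDiff ℝ ∞ γ) (hg : ∀ p, HasGradientAt g (L p) p)
    (h : ∀ p, G (q, e p) = g p + γ (x, p)) (p v v' : F) :
    fderiv ℝ (fderiv ℝ G) (q, e p) (0, e v) (0, e v') =
      ⟪L v + fderiv ℝ (fg γ) (x, p) (0, v), v'⟫_ℝ := by
  have a := (has_d2a hG _ (0, e v')).comp p (dE e q p)
  have c := ((L.hasFDerivAt (x := p)).add (((fg_smooth hγ).differentiable (by simp) _).hasFDerivAt.comp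
    p (hasFDerivAt_prodMk_right x p))).inner ℝ (hasFDerivAt_const v' p)
  simpa using ContinuousLinearMap.ext_iff.1 (a.unique (c.congr_of_eventuallyEq
    (Filter.Eventually.of_forall fun p => k1 hG hγ hg h p v'))) v
end grad

/-- a function with a compact graph is continuous -/
theorem cont_of_graph {A F : Type*} [TopologicalSpace A] [TopologicalSpace F] [T2Space A]
    {s : Set A} {f : A → F} {Γ : Set (A × F)} (hΓ : IsCompact Γ)
    (h : ∀ x p, (x, p) ∈ Γ ↔ x ∈ s ∧ p = f x) : ContinuousOn f s := by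
  refine continuousOn_iff_isClosed.2 fun t ht => ⟨Prod.fst '' (Γ ∩ Prod.snd ⁻¹' t),
    ((hΓ.inter_right (ht.preimage continuous_snd)).image continuous_fst).isClosed, ?_⟩
  ext x
  refine ⟨fun k => ⟨⟨(x, f x), ⟨(h _ _).2 ⟨k.2, rfl⟩, k.1⟩, rfl⟩, k.2⟩, ?_⟩
  rintro ⟨⟨⟨x, p⟩, ⟨a, b⟩, rfl⟩, k⟩
  exact ⟨((h _ _).1 a).2 ▸ b, k⟩

variable {Z : Type} [NormedAddCommGroup Z] [InnerProductSpace ℝ Z] {B : Z →L[ℝ] Z}

/-- `Bz` as a linear map -/
def BL (B : Z →L[ℝ] Z) : Fb Z →L[ℝ] Fb Z :=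
  ((WithLp.prodContinuousLinearEquiv 2 ℝ Y Z).symm : Y × Z →L[ℝ] Fb Z).comp
    (((0 : Y →L[ℝ] Y).prodMap B).comp (WithLp.prodContinuousLinearEquiv 2 ℝ Y Z : Fb Z →L[ℝ] _))

theorem BL_apply (p : Fb Z) : BL B p = Bz B p := rfl

theorem inner_Bz (p v : Fb Z) : ⟪Bz B p, v⟫_ℝ = ⟪B p.snd, v.snd⟫_ℝ := by
  simp [Bz, WithLp.prod_inner_apply]

theorem norm_Bz (p : Fb Z) : ‖Bz B p‖ = ‖B p.snd‖ := by
  simp [Bz]

theorem grad_B [CompleteSpace Z] (hs : ∀ z z', ⟪B z, z'⟫_ℝ = ⟪z, B z'⟫_ℝ) (p : Fb Z) :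
    HasGradientAt (fun p : Fb Z => 1 / 2 * ⟪B p.snd, p.snd⟫_ℝ) (Bz B p) p := by
  rw [hasGradientAt_iff_hasFDerivAt]
  simp only [← inner_Bz, ← BL_apply]
  refine ((((BL B).hasFDerivAt (x := p)).inner ℝ (hasFDerivAt_id p)).const_mul
    (1 / 2 : ℝ)).congr_fderiv (ContinuousLinearMap.ext fun v => ?_)
  have : ⟪BL B v, p⟫_ℝ = ⟪BL B p, v⟫_ℝ := by
    rw [BL_apply, BL_apply, inner_Bz, inner_Bz, hs, real_inner_comm]
  simp [this]
  ring

theorem one [CompleteSpace Z] {ρ : X × Y → ℝ} {r : X × Y → Y} {w c1 c2 c3 : ℝ} {ξ : Z → X}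
    {γ : Fb Z → ℝ} {gr : Fb Z → Fb Z} (Bs : ∀ z z', ⟪B z, z'⟫_ℝ = ⟪z, B z'⟫_ℝ)
    (Bn : ∀ z, ‖B z‖ = ‖z‖) (c10 : 0 ≤ c1) (c20 : 0 ≤ c2) (un : ∀ z, ‖ξ z‖ = 1)
    (x1 : ∀ z z', ‖ξ z - ξ z'‖ ≤ c2 * ‖z - z'‖) (gd : ∀ p, HasGradientAt γ (gr p) p)
    (g2 : ∀ p p', ‖gr p - gr p'‖ ≤ c1 * ‖p - p'‖) (g3 : ∀ p, |γ p| ≤ c3)
    (mo : ∀ p : Fb Z, ρ (ξ p.snd, p.fst) ≤ w → γ (Rt r ξ p) ≤ γ p) {τ t : ℝ}
    (hτ : τ ∈ Icc (0 : ℝ) 1) (ht : t ∈ Icc (0 : ℝ) 1) (h : t = 0 ∨ τ = 1) :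
    One ρ r w (1 + c1 + c2 + 2 * c3) (fun z => ξ (τ • z))
      (fun p => 1 / 2 * ⟪B p.snd, p.snd⟫_ℝ + t * γ p) fun p => Bz B p + t • gr p := by
  have c30 : 0 ≤ c3 := (abs_nonneg _).trans (g3 0)
  refine ⟨fun z => un _, fun z z' => (x1 _ _).trans ?_, fun p => ?_, fun p p' => ?_,
    fun p k => ?_, fun p => ?_⟩
  · rw [← smul_sub, norm_smul, Real.norm_of_nonneg hτ.1]
    exact mul_le_mul (by linarith) (mul_le_of_le_one_left (norm_nonneg _) hτ.2)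
      (mul_nonneg hτ.1 (norm_nonneg _)) (by linarith)
  · rw [hasGradientAt_iff_hasFDerivAt]
    exact ((grad_B Bs p).hasFDerivAt.add ((gd p).hasFDerivAt.const_mul t)).congr_fderiv (by simp)
  · have a : ‖Bz B p - Bz B p'‖ ≤ ‖p - p'‖ := by
      rw [← BL_apply, ← BL_apply, ← map_sub, BL_apply, norm_Bz, Bn]
      exact WithLp.norm_snd_le _ _
    have c := g2 p p'
    rw [add_sub_add_comm, ← smul_sub]
    refine (norm_add_le _ _).trans ?_
    rw [norm_smul, Real.norm_of_nonneg ht.1]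
    have := mul_le_of_le_one_left (norm_nonneg (gr p - gr p')) ht.2
    nlinarith [norm_nonneg (p - p')]
  · rcases h with rfl | rfl
    · simp [Rt]
    · simp only [one_smul] at k ⊢
      exact add_le_add_right (mul_le_mul_of_nonneg_left (mo p k) ht.1) _
  · have a := abs_le.1 (g3 p)
    have c := abs_le.1 (g3 (Rt r (fun z => ξ (τ • z)) p))
    change 1 / 2 * ⟪B p.snd, p.snd⟫_ℝ + _ ≤ _
    nlinarith [ht.1, ht.2]

theorem zc [FiniteDimensional ℝ Z] {ρ : X × Y → ℝ} {r : X × Y → Y} {w R c : ℝ} (hr : Ret ρ r w R)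
    {ξ : X × Z → X} {gr : X × Fb Z → Fb Z} {zz : X → Fb Z} (Bn : ∀ z, ‖B z‖ = ‖z‖)
    (hξ : Continuous ξ) (hg : Continuous gr) (un : ∀ x z, ‖x‖ = 1 → ‖ξ (x, z)‖ = 1)
    (g1 : ∀ x, ‖gr x‖ ≤ c) (zi : ∀ x, ‖x‖ = 1 → ρ (ξ (x, (zz x).snd), (zz x).fst) < 0)
    (zu : ∀ x (p : Fb Z), ‖x‖ = 1 → ρ (ξ (x, p.snd), p.fst) < w →
      (Bz B p + gr (x, p) = 0 ↔ p = zz x)) : ContinuousOn zz (Metric.sphere 0 1) := by
  refine cont_of_graph (Γ := {a : X × Fb Z | ‖a.1‖ = 1 ∧ ρ (ξ (a.1, a.2.snd), a.2.fst) ≤ 0 ∧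
    BL B a.2 + gr a = 0}) (Metric.isCompact_of_isClosed_isBounded ?_ ?_) fun x p => ?_
  · have := hr.ρc
    have c1 : Continuous fun a : X × Fb Z => ρ (ξ (a.1, a.2.snd), a.2.fst) := by fun_prop
    have c2 : Continuous fun a : X × Fb Z => BL B a.2 + gr a := by fun_prop
    exact (isClosed_eq continuous_fst.norm continuous_const).inter
      ((isClosed_le c1 continuous_const).inter (isClosed_eq c2 continuous_const))
  · refine isBounded_iff_forall_norm_le.2 ⟨1 + |R| + c, ?_⟩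
    rintro ⟨x, p⟩ ⟨a1, a2, a3⟩
    have a4 := hr.bl _ _ (un x p.snd a1) (a2.trans hr.w0.le)
    have a5 : ‖p.snd‖ ≤ c := by
      rw [← Bn, ← norm_Bz, ← BL_apply, eq_neg_of_add_eq_zero_left a3, norm_neg]; exact g1 _
    have a6 : ‖p‖ ≤ ‖p.fst‖ + ‖p.snd‖ := by
      rw [WithLp.prod_norm_eq_of_L2]
      exact Real.sqrt_le_iff.2 ⟨by positivity, by nlinarith [norm_nonneg p.fst, norm_nonneg p.snd]⟩
    have := le_abs_self R
    have := abs_nonneg R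
    have := norm_nonneg p.snd
    exact max_le (by simp only at a1 ⊢; linarith) (by simp only at a4 ⊢; linarith)
  · rw [mem_sphere_zero_iff_norm]
    exact and_congr_right fun hx => ⟨fun k => (zu x p hx (k.1.trans_lt hr.w0)).1 k.2,
      fun k => k ▸ ⟨(zi x hx).le, (zu x _ hx ((zi x hx).trans hr.w0)).2 rfl⟩⟩

theorem cr0 {W Z : Type} [NormedAddCommGroup W] [NormedSpace ℝ W] [NormedAddCommGroup Z]
    [NormedSpace ℝ Z] {G : W × Y × Z → ℝ} {G0 : W × Y → ℝ} (hG : ContDiff ℝ ∞ G)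
    (h0 : ContDiff ℝ ∞ G0) {q q' : W} {z : Z} {c : ℝ} (h : ∀ y, G (q, y, z) = G0 (q', y) + c)
    {y : Y} (k : Cr G (q, y, z)) : Cr G0 (q', y) := fun ζ => by
  have a := (hG.differentiable (by simp) _).hasFDerivAt.comp y
    ((hasFDerivAt_const q _).prodMk (hasFDerivAt_prodMk_left y z))
  have c := (((h0.differentiable (by simp) _).hasFDerivAt.comp y
    (hasFDerivAt_prodMk_right q' y)).add_const c).congr_of_eventuallyEq
      (Filter.Eventually.of_forall h)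
  exact (ContinuousLinearMap.ext_iff.1 (c.unique a) ζ).trans (k (ζ, 0))

theorem fin0 {E : Type} [NormedAddCommGroup E] [NormedSpace ℝ E] [FiniteDimensional ℝ E]
    {G : V × E → ℝ} {D : Set (V × E)} (h : Gen G D Us (Lc (range (zeroSection 11)))) {q : V}
    (h1 : ‖q.1‖ = 1) (h2 : ‖q.2‖ = 1) :
    ∃ ξ, (q, ξ) ∈ D ∧ Cr G (q, ξ) ∧ (∀ ξ', (q, ξ') ∈ D → Cr G (q, ξ') → ξ' = ξ) ∧
      ∀ ζ, (∀ η, fderiv ℝ (fderiv ℝ G) (q, ξ) (0, ζ) (0, η) = 0) → ζ = 0 := by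
  refine h.fin ?_ (isOpen_Us.mem_nhds (unit_mem_Us h1 h2)) ⟨_, ⟨(⟨q.1, by simpa using h1⟩,
    ⟨q.2, by simpa using h2⟩), rfl⟩, 1, 1, one_pos, one_pos, by simp [zeroSection],
    by simp [zeroSection]⟩
  rintro z ⟨_, ⟨l, rfl⟩, s, t, -, -, -, k⟩
  exact ContinuousLinearMap.ext fun w => by simpa [zeroSection] using k w

end Toe

open Toe in
theorem toe2 : TOE2 := by
  rintro ι ρ r w R G0 hI ⟨Z, _, _, _, Bl, b, η, hC⟩
  obtain ⟨M, e, B, Bs, Bq, Bn, Be⟩ := diag Bl hC.sy hC.nd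
  obtain ⟨θ, θ1⟩ : ∃ θ : Y, ‖θ‖ = 1 := ⟨EuclideanSpace.single 0 1, by simp⟩
  have hU : ∀ x : X, ‖x‖ = 1 → ((θ, x) : V) ∈ Us := fun x hx => unit_mem_Us θ1 hx
  obtain ⟨E, hE⟩ : ∃ E : Fb (Eu M) ≃L[ℝ] Y × Z, ∀ p, E p = (p.fst, e p.snd) :=
    ⟨(WithLp.prodContinuousLinearEquiv 2 ℝ Y (Eu M)).trans
      ((ContinuousLinearEquiv.refl ℝ Y).prodCongr e), fun _ => rfl⟩
  have l1 : Lp fun x : X × Eu M => (((θ, x.1), e x.2) : V × Z) :=
    ((Lp.const θ).prodMk Lp.fst').prodMk ((Lp.clm (e : Eu M →L[ℝ] Z)).comp Lp.snd')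
  have lP : Lp fun x : X × Fb (Eu M) => (x.2.fst, x.2.snd) := (Lp.clm
    (WithLp.prodContinuousLinearEquiv 2 ℝ Y (Eu M) : Fb (Eu M) →L[ℝ] Y × Eu M)).comp Lp.snd'
  have l2 : Lp fun x : X × Fb (Eu M) => (x.1, x.2.snd) := Lp.fst'.prodMk lP.snd
  have hβ := hC.bb.comp l1
  obtain ⟨ξ, hξ, ξe⟩ : ∃ ξ : X × Eu M → X, Bd ξ ∧ ∀ x z, ξ (x, z) = (nn (b ((θ, x), e z))).2 :=
    ⟨_, Bd.smooth_comp nv_smooth hβ.snd, fun _ _ => rfl⟩
  obtain ⟨γ, hγ, γe⟩ : ∃ γ : X × Fb (Eu M) → ℝ, Bd γ ∧ ∀ x p, γ (x, p) =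
      G0 (b ((θ, x), e p.snd), p.fst) + η ((θ, x), e p.snd) :=
    ⟨_, (Bd.cut hI.gen.sm hI.out (hβ.comp l2) lP.fst).add ((hC.be.comp l1).comp l2),
      fun _ _ => rfl⟩
  have un : ∀ x z, ‖x‖ = 1 → ‖ξ (x, z)‖ = 1 := fun x z hx => by
    rw [ξe]; exact (nn_norm (hC.bU _ (hU x hx) _)).2
  obtain ⟨c1, c10, g1, g2⟩ := fg_bd hγ.lp
  obtain ⟨c2, c20, x1, -⟩ := hξ.lp.bound
  obtain ⟨c3, g3⟩ := hγ.2
  obtain ⟨G, D, gG, Ge, De⟩ : ∃ G D, Gen (E := Y × Z) G D Us (Lc (range (zeroSection 11))) ∧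
      (∀ q y z, G (q, y, z) = G0 (b (q, z), y) + 1 / 2 * Bl z z + η (q, z)) ∧
      ∀ q y z, (q, y, z) ∈ D ↔ ρ ((nn (b (q, z))).2, y) < w :=
    ⟨_, _, hC.gen, fun _ _ _ => rfl, fun _ _ _ => Iff.rfl⟩
  have gB : ∀ p, HasGradientAt (fun p : Fb (Eu M) => 1 / 2 * ⟪B p.snd, p.snd⟫_ℝ) (BL B p) p :=
    grad_B Bs
  have Gγ : ∀ x p, G ((θ, x), E p) = 1 / 2 * ⟪B p.snd, p.snd⟫_ℝ + γ (x, p) := fun x p => by
    rw [hE, Ge, γe, Be]; ring
  have Dξ : ∀ x p, ((θ, x), E p) ∈ D ↔ ρ (ξ (x, p.snd), p.fst) < w := fun x p => by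
    rw [hE, De, ξe]
  have fin : ∀ x : X, ∃ p : Fb (Eu M), ‖x‖ = 1 → ρ (ξ (x, p.snd), p.fst) < w ∧
      Cr G ((θ, x), E p) ∧ (∀ p', ρ (ξ (x, p'.snd), p'.fst) < w → Cr G ((θ, x), E p') → p' = p) ∧
      ∀ ζ, (∀ ζ', fderiv ℝ (fderiv ℝ G) ((θ, x), E p) (0, ζ) (0, ζ') = 0) → ζ = 0 := fun x => by
    by_cases hx : ‖x‖ = 1
    · obtain ⟨ζ, a1, a2, a3, a4⟩ := fin0 gG (q := (θ, x)) θ1 hx
      obtain ⟨p, rfl⟩ := E.surjective ζ
      exact ⟨p, fun _ => ⟨(Dξ _ _).1 a1, a2,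
        fun p' u v => E.injective (a3 _ ((Dξ _ _).2 u) v), a4⟩⟩
    · exact ⟨0, fun h => absurd h hx⟩
  choose zz hz using fin
  have zu : ∀ x (p : Fb (Eu M)), ‖x‖ = 1 → ρ (ξ (x, p.snd), p.fst) < w →
      (Bz B p + fg γ (x, p) = 0 ↔ p = zz x) := fun x p hx h =>
    (cr_iff gG.sm hγ.smooth gB (Gγ x) p).symm.trans
      ⟨(hz x hx).2.2.1 p h, fun k => k ▸ (hz x hx).2.1⟩
  have zi : ∀ x, ‖x‖ = 1 → ρ (ξ (x, (zz x).snd), (zz x).fst) < 0 := fun x hx => by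
    obtain ⟨a1, a2, -⟩ := hz x hx
    rw [ξe] at a1 ⊢
    rw [hE] at a2
    exact hI.neg _ (hC.bU _ (hU x hx) _) _ a1
      (cr0 gG.sm hI.gen.sm (fun y => (Ge _ y _).trans (add_assoc _ _ _)) a2)
  have c30 : 0 ≤ c3 := (norm_nonneg _).trans (g3 0)
  refine ⟨M, 1 + c1 + c2 + 2 * c3, B, ξ, γ, fg γ, zz, ⟨Bs, Bq, hξ.smooth, hγ.smooth,
    fg_smooth hγ.smooth, fg_grad hγ.smooth, fun x hx => ?_, fun x p _ => (g1 _).trans ?_,
    fun x τ t hx hτ ht h => one (ξ := fun z => ξ (x, z)) Bs Bn c10 c20 (fun z => un x z hx)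
      (fun z z' => by simpa using x1 (x, z) (x, z')) (fg_grad hγ.smooth x) (g2 x)
      (fun p => g3 (x, p)) (fun p k => ?_) hτ ht h,
    zc hI.ret Bn hξ.smooth.continuous (fg_smooth hγ.smooth).continuous un g1 zi zu, zi, zu,
    fun x v hx h => E.injective (((hz x hx).2.2.2 _ fun ζ => ?_).trans (map_zero E).symm)⟩,
    fun x z y y' hx h => ?_, fun x p _ => le_trans (g3 (x, p)) (by linarith)⟩
  · rw [ξe, map_zero, hC.b0 _ (hU x hx)]; exact nv_unit hx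
  · linarith
  · rw [γe, γe]
    simp only [ξe] at k
    simp only [Rt, ξe]
    exact add_le_add_left (hI.mono _ (hC.bU _ (hU x hx) (e p.snd)) p.fst k) _
  · obtain ⟨v', rfl⟩ := E.surjective ζ
    rw [k2 gG.sm hγ.smooth gB (Gγ x), BL_apply, h, inner_zero_left]
  · rw [γe, γe]
    exact add_le_add_left (h _ (hC.bU _ (hU x hx) (e z)) (ξe x z).symm) _


end Crest.Agent.N218.C
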